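import Vale.Agent.P022G.Ax.X
import Vale.Agent.P022G.Top.L2

/-!
# P022G, block AUX: the auxiliary primes for a normal subgroup
-/

set_option linter.all false

noncomputable section

namespace Vale.Agent.P022G.Ax

open NumberField
open Vale.Agent.P022 Vale.Agent.P022.H443
open Vale.Agent.P027M.S (Inert mx)
open Vale.Agent.P022D.Dk (Cy8 H8)
open Vale.Agent.P022E.GW
open Vale.Agent.P022E.GW.Kc
open Vale.Agent.P022G.Obs (FX)
open Pointwise

open Classical in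
theorem fx_pr {H : Subgroup GQ} {T : Finset ℕ} (h : FX H (T.filter fun l => l = 0 ∨ l.Prime)) :
    FX H T := by
  intro F _ _ _ w ho hw
  obtain ⟨b, b1, b2⟩ := h F w ho fun l lT P o =>
    hw l (fun q => lT (Finset.mem_filter.2 ⟨q, Or.inr o.1⟩)) P o
  exact ⟨b, b1, fun l lT => b2 l fun q => lT (Finset.mem_filter.1 q).1⟩

theorem ax8 (H : Subgroup GQ) (hH : IsOpen (H : Set GQ)) (h8 : ∀ g ∈ H, Cy8 g) (S : Finset ℕ) :
    ∃ A : Finset ℕ, (∀ a ∈ A, a ∉ S ∧ Sp H a) ∧ ∀ T : Finset ℕ, 2 ∈ T → A ⊆ T →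
      (∀ l ∈ T, l = 0 ∨ l.Prime) → FX H T := by
  have hfin : FiniteDimensional ℚ (H916.FF H) := H916.finU H hH
  have hNF : NumberField (H916.FF H) :=
    { to_charZero := inferInstance, to_finiteDimensional := hfin }
  let j : H916.FF H →+* Qb := (IntermediateField.fixedField H).val.toRingHom
  have hj : GK j = H := Subgroup.ext fun g =>
    ⟨fun h => Hy.fixed hH fun x hx => h (⟨x, hx⟩ : H916.FF H), fun h x => by
      have h1 := x.2
      rw [IntermediateField.mem_fixedField_iff] at h1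
      exact h1 _ h⟩
  have := ax0 j H hH (hj.symm ▸ hH) (fun g q => ⟨1, odd_one, by rw [pow_one]; exact hj ▸ q⟩) S {1}
    (fun x hx => ⟨1, Finset.mem_singleton_self _, fun g a => by
      rw [hx g a (h8 g (hj ▸ a)), zero_add]; exact kq_oneL j g⟩)
    (fun S _ => by rw [Finset.card_singleton]; exact Nat.card_pos)
  rwa [hj] at this

theorem odd_ix (K M : Subgroup GQ) [K.Normal] (ho : IsOpen (K : Set GQ))
    (hp : ∀ g : GQ, Cy8 g → ∃ o : ℕ, Odd o ∧ g ^ o ∈ K)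
    (hM : ∀ g ∈ M, ∃ k ∈ K, kq (-1) g + kq (-1) k = 0 ∧ kq 2 g + kq 2 k = 0) :
    Odd (K.relIndex M) := by
  haveI := H916.isGalois_Qb
  haveI : Finite (GQ ⧸ K) := Subgroup.quotient_finite_of_isOpen _ ho
  let r := QuotientGroup.mk' K
  have e := Subgroup.relIndex_ker M r
  rw [QuotientGroup.ker_mk'] at e
  rw [e]
  refine Nat.not_even_iff_odd.1 fun he => ?_
  haveI : Fact (Nat.Prime 2) := ⟨Nat.prime_two⟩
  obtain ⟨⟨_, g, hg, rfl⟩, hx⟩ := exists_prime_orderOf_dvd_card' 2 (even_iff_two_dvd.1 he)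
  obtain ⟨k, k1, k2, k3⟩ := hM g hg
  obtain ⟨o, o1, o2⟩ := hp (g * k) ((cy8_iff _).2 ⟨by rw [ab, k2], by rw [ac, k3]⟩)
  have e1 : r k = 1 := (QuotientGroup.eq_one_iff k).2 k1
  have e2 : r ((g * k) ^ o) = 1 := (QuotientGroup.eq_one_iff _).2 o2
  rw [map_pow, map_mul, e1, mul_one] at e2
  have e3 : (⟨r g, g, hg, rfl⟩ : M.map r) ^ o = 1 := Subtype.ext e2
  have := orderOf_dvd_of_pow_eq_one e3
  rw [hx] at this
  exact Nat.not_even_iff_odd.2 o1 (even_iff_two_dvd.2 this)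

theorem fd_K (K : Subgroup GQ) [K.Normal] (ho : IsOpen (K : Set GQ))
    (hp : ∀ g : GQ, Cy8 g → ∃ o : ℕ, Odd o ∧ g ^ o ∈ K) (h8 : ¬ ∀ g ∈ K, Cy8 g) : Fd K := by
  push Not at h8
  obtain ⟨s, s1, s2⟩ := h8
  rw [cy8_iff] at s2
  have o1 : kq (-1) 1 = 0 := ((cy8_iff 1).1 H8.one_mem).1
  have o2 : kq 2 1 = 0 := ((cy8_iff 1).1 H8.one_mem).2
  by_cases c : ∃ d : ℤ, (d = -1 ∨ d = 2 ∨ d = -2) ∧ ∀ g ∈ K, kq (d : Qb) g = 0
  · obtain ⟨d, hd, hk⟩ := c
    let M := MulAction.stabilizer GQ (rt (d : Qb))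
    have st : ∀ g, kq (d : Qb) g = 0 ↔ g ∈ M := fun g => kq_zero (rt_sq _) g
    have ad : ∀ g h : GQ, kq (d : Qb) (g * h) = kq (d : Qb) g + kq (d : Qb) h := fun g h =>
      kq_add (map_intCast g d) (map_intCast h d)
    obtain ⟨u, hu⟩ := nsq hd
    have i2 : M.index = 2 := Subgroup.index_eq_two_iff.2 ⟨u, fun b => by
      rw [← st, ← st, ad, hu]
      generalize kq (d : Qb) b = x
      revert x
      unfold Xor
      decide⟩
    have e := Subgroup.relIndex_mul_index (H := K) (K := M) fun g q => (st g).1 (hk g q)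
    refine Or.inr ⟨d, hd, hk, _, odd_ix K M ho hp fun g q => ?_, by rw [← e, i2, mul_comm]⟩
    have g0 := (st g).2 q
    have s0 := hk s s1
    have : (kq (-1) g + 0 = 0 ∧ kq 2 g + 0 = 0) ∨
        (kq (-1) g + kq (-1) s = 0 ∧ kq 2 g + kq 2 s = 0) := by
      rcases hd with rfl | rfl | rfl
      · rw [Int.cast_neg, Int.cast_one] at g0 s0
        revert g0 s0 s2
        generalize kq (-1) g = x, kq 2 g = y, kq (-1) s = z, kq 2 s = t
        rcases z2 x with rfl | rfl <;> rcases z2 y with rfl | rfl <;> revert z t <;> decide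
      · rw [Int.cast_ofNat] at g0 s0
        revert g0 s0 s2
        generalize kq (-1) g = x, kq 2 g = y, kq (-1) s = z, kq 2 s = t
        rcases z2 x with rfl | rfl <;> rcases z2 y with rfl | rfl <;> revert z t <;> decide
      · rw [Int.cast_neg, Int.cast_ofNat, bc] at g0 s0
        revert g0 s0 s2
        generalize kq (-1) g = x, kq 2 g = y, kq (-1) s = z, kq 2 s = t
        rcases z2 x with rfl | rfl <;> rcases z2 y with rfl | rfl <;> revert z t <;> decide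
    rcases this with q | q
    · exact ⟨1, K.one_mem, by rwa [o1, o2]⟩
    · exact ⟨s, s1, q⟩
  · push Not at c
    obtain ⟨u, u1, u2⟩ := c (-1) (by simp)
    obtain ⟨v, v1, v2⟩ := c 2 (by simp)
    obtain ⟨w, w1, w2⟩ := c (-2) (by simp)
    rw [Int.cast_neg, Int.cast_one] at u2
    rw [Int.cast_ofNat] at v2
    rw [Int.cast_neg, Int.cast_ofNat, bc] at w2
    left
    rw [← Subgroup.relIndex_top_right]
    refine odd_ix K ⊤ ho hp fun g _ => ?_
    have : (kq (-1) g + 0 = 0 ∧ kq 2 g + 0 = 0) ∨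
        (kq (-1) g + kq (-1) u = 0 ∧ kq 2 g + kq 2 u = 0) ∨
        (kq (-1) g + kq (-1) v = 0 ∧ kq 2 g + kq 2 v = 0) ∨
        (kq (-1) g + kq (-1) w = 0 ∧ kq 2 g + kq 2 w = 0) ∨
        (kq (-1) g + (kq (-1) u + kq (-1) v) = 0 ∧ kq 2 g + (kq 2 u + kq 2 v) = 0) ∨
        (kq (-1) g + (kq (-1) u + kq (-1) w) = 0 ∧ kq 2 g + (kq 2 u + kq 2 w) = 0) := by
      revert u2 v2 w2
      generalize kq (-1) g = x, kq 2 g = y, kq (-1) u = a, kq 2 u = b, kq (-1) v = c, kq 2 v = d,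
        kq (-1) w = e, kq 2 w = f
      revert x y a b c d e f
      decide
    rcases this with q | q | q | q | q | q
    · exact ⟨1, K.one_mem, by rwa [o1, o2]⟩
    · exact ⟨u, u1, q⟩
    · exact ⟨v, v1, q⟩
    · exact ⟨w, w1, q⟩
    · exact ⟨u * v, K.mul_mem u1 v1, by rwa [ab, ac]⟩
    · exact ⟨u * w, K.mul_mem u1 w1, by rwa [ab, ac]⟩

/-- **the auxiliary primes** -/
theorem auxG : Top.AUXG := by
  classical
  intro K hN ho hp S n t2
  obtain ⟨g, z, w, g8, z4, w8, gz, gw⟩ := ex_mv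
  let V := K ⊓ H8 ⊓ MulAction.stabilizer GQ z ⊓ MulAction.stabilizer GQ w
  have hV : IsOpen (V : Set GQ) := ((ho.inter h8_open).inter (stab_open _)).inter (stab_open _)
  obtain ⟨R, -, hR⟩ := Hy.ex_ram (P022D.Sel.opn_core V hV)
  obtain ⟨A, A1, A2⟩ : ∃ A : Finset ℕ, (∀ a ∈ A, a ∉ S ∪ R ∧ Sp K a) ∧ ∀ T : Finset ℕ, 2 ∈ T →
      A ⊆ T → (∀ l ∈ T, l = 0 ∨ l.Prime) → FX K T := by
    by_cases h8 : ∀ g ∈ K, Cy8 g
    · exact ax8 K ho h8 _
    · exact ax K K ho ho (fun g q => ⟨1, odd_one, by rwa [pow_one]⟩) (fd_K K ho hp h8) _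
  obtain ⟨B, B1, B2⟩ := many K ho (S ∪ R) n
  obtain ⟨o, oo, gm⟩ := hp g g8
  obtain ⟨l, lS, P, φ, hO, hF, m, om, v, ⟨⟨⟨v1, v2⟩, v3⟩, v4⟩, e⟩ :=
    frob_in V hV (g ^ o) (insert 2 (S ∪ R))
  rw [Finset.mem_insert, not_or] at lS
  have f1 : φ ∈ K := e ▸ K.mul_mem (K.pow_mem gm m) v1
  have f2 : φ ∈ H8 := e ▸ H8.mul_mem (H8.pow_mem (H8.pow_mem (x := g) g8 _) m) v2
  have mv : ∀ x : Qb, g x = -x → v x = x → φ x = -x := fun x p q => by
    rw [e, AlgEquiv.mul_apply, q, odd_neg (odd_neg p oo) om]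
  have all : ∀ a ∈ insert l (A ∪ B), a ∉ S ∪ R ∧ Sp K a := fun a ha => by
    rcases Finset.mem_insert.1 ha with rfl | ha
    · exact ⟨lS.2, mod8 hO lS.1 hF f2, P, φ, hO, hF, f1⟩
    · exact (Finset.mem_union.1 ha).elim (A1 a) (B2 a)
  have p2 : 2 ∈ (S ∪ insert l (A ∪ B)).filter fun l => l = 0 ∨ l.Prime :=
    Finset.mem_filter.2 ⟨Finset.mem_union_left _ t2, Or.inr Nat.prime_two⟩
  have tp : ∀ a ∈ (S ∪ insert l (A ∪ B)).filter fun l => l = 0 ∨ l.Prime, a = 0 ∨ a.Prime :=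
    fun a q => (Finset.mem_filter.1 q).2
  refine ⟨insert l (A ∪ B), B1.trans (Finset.card_le_card
    (Finset.subset_union_right.trans (Finset.subset_insert _ _))), fun a ha => ?_,
    ⟨l, Finset.mem_insert_self _ _, ?_⟩, fx_pr (A2 _ p2 (fun a q => Finset.mem_filter.2
      ⟨Finset.mem_union_right _ (Finset.mem_insert_of_mem (Finset.mem_union_left _ q)), by
        obtain ⟨-, -, Q, ψ, a3, -⟩ := A1 a q
        exact Or.inr a3.1⟩) tp), fx_pr (fx_top p2 tp)⟩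
  · obtain ⟨a1, a2, Q, ψ, a3, a4, a5⟩ := all a ha
    rw [Finset.mem_union, not_or] at a1
    refine ⟨a3.1, a1.1, a2, ?_⟩
    rintro φ' ⟨P', q1, q2, f⟩
    obtain ⟨t, i, hi, rfl⟩ := frob_cj a3 ⟨a3.1, q1, q2⟩ a4 f
    exact K.mul_mem (V.normalCore_le (hR a a1.2 P' ⟨a3.1, q1, q2⟩ i hi)).1.1.1 (hN.conj_mem ψ a5 t)
  · rintro φ' ⟨P', q1, q2, f⟩
    have o : Ov l P' := ⟨hO.1, q1, q2⟩
    obtain ⟨t, i, hi, rfl⟩ := frob_cj hO o hF f
    have iN := hR l (fun q => lS.2 (Finset.mem_union_right _ q)) P' o i hi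
    have iV : t⁻¹ * i * t⁻¹⁻¹ ∈ V := V.normalCore_le (V.normalCore_normal.conj_mem i iN t⁻¹)
    rw [inv_inv] at iV
    have k : ∀ x : Qb, x ≠ 0 → φ x = -x → (t⁻¹ * i * t) x = x →
        (i * (t * φ * t⁻¹)) (t x) ≠ t x := fun x x0 p q r => by
      have e1 : i * (t * φ * t⁻¹) * t = t * (t⁻¹ * i * t) * φ := by group
      rw [← AlgEquiv.mul_apply, e1, AlgEquiv.mul_apply, AlgEquiv.mul_apply, p, map_neg, q] at r
      exact ne_neg x0 (t.injective r)
    exact ⟨⟨t z, by rw [← map_pow, z4, gc], k z (by rintro rfl; norm_num at z4) (mv z gz v3)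
      iV.1.2⟩, t w, by rw [← map_pow, w8, map_neg, map_ofNat],
      k w (by rintro rfl; norm_num at w8) (mv w gw v4) iV.2⟩

end Vale.Agent.P022G.Ax
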