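import Vale.Agent.P011.Arith.Hasse4

/-!
# P022G, block AUX: the index count
-/

set_option linter.all false

noncomputable section

namespace Vale.Agent.P022G.Ax

open NumberField IsDedekindDomain
open Vale.Agent.P011.Arith

section group

variable {G : Type} [CommGroup G]

theorem rel_le (H K : Subgroup G) (ds : Finset G) (h : ∀ x ∈ K, ∃ d ∈ ds, x * d ∈ H) :
    H.relIndex K ≤ ds.card := by
  classical
  choose d hd hx using h
  let g : K ⧸ H.subgroupOf K → ds := fun q => ⟨d q.out.1 q.out.2, hd _ _⟩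
  have hg : Function.Injective g := by
    intro q q' e
    have e1 : d q.out.1 q.out.2 = d q'.out.1 q'.out.2 := congrArg Subtype.val e
    have h1 := hx q.out.1 q.out.2
    have h2 := hx q'.out.1 q'.out.2
    rw [← e1] at h2
    rw [← QuotientGroup.out_eq' q, ← QuotientGroup.out_eq' q', QuotientGroup.eq,
      Subgroup.mem_subgroupOf]
    have h3 := H.mul_mem (H.inv_mem h1) h2
    rwa [mul_inv, mul_mul_mul_comm, inv_mul_cancel, mul_one] at h3
  have := Nat.card_le_card_of_injective g hg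
  simpa [Subgroup.relIndex, Subgroup.index] using this

theorem split {C : Type} [Group C] [Finite C] (Λ : G →* C) (M E : Subgroup G) (hM : M ≤ Λ.ker)
    (h0 : M.index ≠ 0) (h : M.index ≤ Nat.card (E.map Λ)) (g : G) :
    ∃ m ∈ M, ∃ e ∈ E, g = m * e := by
  haveI : M.FiniteIndex := ⟨h0⟩
  let f : G ⧸ M →* C := QuotientGroup.lift M Λ hM
  let E' : Subgroup (G ⧸ M) := E.map (QuotientGroup.mk' M)
  have e1 : E'.map f = E.map Λ := by
    rw [Subgroup.map_map]; congr 1
  have e2 : Nat.card (E'.map f) ≤ Nat.card E' :=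
    Nat.card_le_card_of_surjective _ (f.subgroupMap_surjective E')
  have e3 : E' = ⊤ := Subgroup.eq_top_of_le_card E' (by
    rw [e1] at e2
    exact le_trans h e2)
  have e4 : (g : G ⧸ M) ∈ E' := e3 ▸ Subgroup.mem_top _
  obtain ⟨e, he, e5⟩ := e4
  have e6 : e⁻¹ * g ∈ M := QuotientGroup.eq.1 e5
  exact ⟨_, e6, e, he, by rw [mul_comm, mul_inv_cancel_left]⟩

end group

variable {F : Type} [Field F] [NumberField F]

/-- a maximal set of allowed primes -/
theorem ex_T (Al : HeightOneSpectrum (𝓞 F) → Prop) (Gd : Fˣ → Prop)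
    (hN : ∀ x, ¬ Gd x → ∀ S₁ : Set (HeightOneSpectrum (𝓞 F)), S₁.Finite →
      ∃ v ∉ S₁, Al v ∧ x ∉ LS (v.valuation F))
    {S : Set (HeightOneSpectrum (𝓞 F))} (hS : S.Finite) (hPr : Pr S) :
    ∃ T : Finset (HeightOneSpectrum (𝓞 F)), Aux 1 S T ∧ (∀ w ∈ T, Al w) ∧ ∀ x ∈ S.unit F,
      (∀ w ∈ T, x ∈ LS (w.valuation F)) → Gd x := by
  classical
  let P : ℕ → Prop := fun n => ∃ T : Finset (HeightOneSpectrum (𝓞 F)),
    (Aux 1 S T ∧ ∀ w ∈ T, Al w) ∧ T.card = n
  have h0 : P 0 := ⟨∅, ⟨⟨by simp, by simp, fun e => ⟨1, Subgroup.one_mem _, by simp⟩⟩, by simp⟩, rfl⟩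
  obtain ⟨n, ⟨T, ⟨hT, hA⟩, hn⟩, hmax⟩ : ∃ n, P n ∧ ∀ m, P m → m ≤ n := by
    have hb : ∀ m, P m → m ≤ S.ncard + Fintype.card (InfinitePlace F) := by
      rintro m ⟨T, hT, rfl⟩
      exact hT.1.le hS
    refine ⟨Nat.findGreatest P (S.ncard + Fintype.card (InfinitePlace F)),
      Nat.findGreatest_spec (Nat.zero_le _) h0, fun m hm => Nat.le_findGreatest (hb m hm) hm⟩
  refine ⟨T, hT, hA, ?_⟩
  intro x hx hxT
  by_contra hcon
  obtain ⟨v, hv, hav, hxv⟩ := hN x hcon (S ∪ T) (hS.union T.finite_toSet)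
  have hvS : v ∉ S := fun h => hv (Or.inl h)
  have hvT : v ∉ T := fun h => hv (Or.inr h)
  have h2v := dyadic_of_Pr hPr hvS
  have h3 : Aux 1 S (insert v T) := by
    refine ⟨?_, fun w _ => Subgroup.one_mem _, ?_⟩
    · intro w hw
      rcases Finset.mem_insert.mp hw with rfl | hw
      · exact hvS
      · exact hT.disj w hw
    · intro e
      obtain ⟨u, hu, hu'⟩ := hT.surj e
      by_cases h4 : u ∈ LS (v.valuation F) ↔ e v = true
      · refine ⟨u, hu, ?_⟩
        intro w hw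
        rcases Finset.mem_insert.mp hw with rfl | hw
        · exact h4
        · exact hu' w hw
      · refine ⟨u * x, Subgroup.mul_mem _ hu hx, ?_⟩
        intro w hw
        rcases Finset.mem_insert.mp hw with rfl | hw
        · rw [mul_mem_LS_iff h2v (hu _ hvS) (hx _ hvS)]
          tauto
        · rw [Subgroup.mul_mem_cancel_right _ (hxT w hw)]
          exact hu' w hw
  have h4 := hmax _ ⟨_, ⟨h3, fun w hw => (Finset.mem_insert.mp hw).elim (fun e => e ▸ hav)
    (hA w)⟩, rfl⟩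
  rw [Finset.card_insert_of_notMem hvT, hn] at h4
  omega

/-- the local squares at `S` and at the real places -/
def DD (S : Set (HeightOneSpectrum (𝓞 F))) : Subgroup Fˣ := ⨅ p : SP S, LSp p.1

theorem mem_DD {S : Set (HeightOneSpectrum (𝓞 F))} {x : Fˣ} (h : x ∈ DD S) :
    (∀ v ∈ S, x ∈ LS (v.valuation F)) ∧ ∀ φ : F →+* ℝ, 0 < φ x := by
  rw [DD, Subgroup.mem_iInf] at h
  exact ⟨fun v hv => h ⟨.inl v, inl_mem_SP.mpr hv⟩, fun φ => h ⟨.inr φ, inr_mem_SP⟩⟩

/-- **the index count** -/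
theorem cnt {S : Set (HeightOneSpectrum (𝓞 F))} (hS : S.Finite) (hPr : Pr S)
    {T : Finset (HeightOneSpectrum (𝓞 F))} (hT : Aux 1 S T) (ds : Finset Fˣ)
    (hx : ∀ x ∈ S.unit F, (∀ w ∈ T, x ∈ LS (w.valuation F)) → ∃ d ∈ ds, x * d ∈ Sq F) :
    (DD S ⊔ (S ∪ (T : Set (HeightOneSpectrum (𝓞 F)))).unit F).index ≠ 0 ∧
    (DD S ⊔ (S ∪ (T : Set (HeightOneSpectrum (𝓞 F)))).unit F).index ≤ ds.card := by
  classical
  let K : Subgroup Fˣ := (⨅ w : T, LS (w.1.valuation F)) ⊓ S.unit F
  have hmemK : ∀ x, x ∈ K ↔ (∀ w ∈ T, x ∈ LS (w.valuation F)) ∧ x ∈ S.unit F := by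
    intro x
    simp only [K, Subgroup.mem_inf, Subgroup.mem_iInf, Subtype.forall]
  have hKS : K ≤ S.unit F := inf_le_right
  have hSqK : Sq F ⊓ K ≤ K := inf_le_right
  have hsq : (Sq F ⊓ K).relIndex (S.unit F) =
      2 ^ (S.ncard + Fintype.card (InfinitePlace F)) := by
    have e : Sq F ⊓ K = Sq F ⊓ S.unit F := by
      ext x
      simp only [Subgroup.mem_inf, hmemK]
      exact ⟨fun h => ⟨h.1, h.2.2⟩, fun h => ⟨h.1, fun w _ => Sq_le_LS _ h.1, h.2⟩⟩
    rw [e, Subgroup.inf_relIndex_right, Sq_relIndex_unit S hS]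
  have hmul := Subgroup.relIndex_mul_relIndex (Sq F ⊓ K) K (S.unit F) hSqK hKS
  rw [hsq, Subgroup.inf_relIndex_right] at hmul
  have hup : K.relIndex (S.unit F) ≤ 2 ^ T.card := by
    let f : (S.unit F) → (T → Bool) := fun u w => decide (u.1 ∈ LS (w.1.valuation F))
    have hf : ∀ u u' : S.unit F, f u = f u' → u.1⁻¹ * u'.1 ∈ K := by
      intro u u' h
      rw [hmemK]
      refine ⟨?_, Subgroup.mul_mem _ (Subgroup.inv_mem _ u.2) u'.2⟩
      intro w hw
      have h1 := congrFun h ⟨w, hw⟩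
      simp only [f, decide_eq_decide] at h1
      have hwS := hT.disj w hw
      have h3 : w.valuation F ((u.1⁻¹ : Fˣ) : F) = 1 := (Subgroup.inv_mem _ u.2) w hwS
      rw [mul_mem_LS_iff (dyadic_of_Pr hPr hwS) h3 (u'.2 w hwS), Subgroup.inv_mem_iff]
      exact h1
    let g : (S.unit F) ⧸ K.subgroupOf (S.unit F) → (T → Bool) := fun q => f q.out
    have hg : Function.Injective g := by
      intro q q' h
      have h1 := hf _ _ h
      rw [← QuotientGroup.out_eq' q, ← QuotientGroup.out_eq' q']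
      rw [QuotientGroup.eq, Subgroup.mem_subgroupOf]
      exact h1
    have := Nat.card_le_card_of_injective g hg
    rw [Nat.card_eq_fintype_card (α := T → Bool)] at this
    simpa [Subgroup.relIndex, Subgroup.index] using this
  have hsm : (Sq F).relIndex K ≤ ds.card :=
    rel_le _ _ ds fun x h => hx x ((hmemK x).1 h).2 ((hmemK x).1 h).1
  set s := S.ncard + Fintype.card (InfinitePlace F) with hs
  have h1 : 2 ^ s ≤ ds.card * 2 ^ T.card := hmul ▸ Nat.mul_le_mul hsm hup
  have hfin := SP_finite hS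
  have : Fintype (SP S) := hfin.fintype
  set W := (S ∪ (T : Set (HeightOneSpectrum (𝓞 F)))).unit F with hWdef
  have hWsq : (Sq F).relIndex W = 2 ^ (s + T.card) := by
    rw [hWdef, Sq_relIndex_unit _ (hS.union T.finite_toSet), Set.ncard_union_eq ?_ hS
      T.finite_toSet, Set.ncard_coe_finset]
    · congr 1
      omega
    · rw [Set.disjoint_left]
      intro w hwS hwT
      exact hT.disj w hwT hwS
  have hK : (DD S).relIndex W = (Sq F).relIndex W := by
    rw [← Subgroup.inf_relIndex_right, ← Subgroup.inf_relIndex_right (Sq F)]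
    congr 1
    ext x
    simp only [Subgroup.mem_inf]
    constructor
    · rintro ⟨h1, h2⟩
      exact ⟨mem_Sq_of_local hS T.finite_toSet hPr hT.surj h2 (mem_DD h1).1 (mem_DD h1).2, h2⟩
    · rintro ⟨h1, h2⟩
      exact ⟨Subgroup.mem_iInf.2 fun p => Sq_le_LSp p.1 h1, h2⟩
  have hprod : ∏ p : SP S, (LSp p.1).index ≤ 2 ^ (s + s) := by
    have e1 : ∏ p : SP S, (LSp p.1).index = (∏ v ∈ hS.toFinset, (LS (v.valuation F)).index) *
        2 ^ Nat.card (F →+* ℝ) := by
      have : Fintype (F →+* ℝ) := Fintype.ofFinite _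
      have e2 : (SP S).toFinset = hS.toFinset.disjSum Finset.univ := by
        ext p
        rcases p with v | φ
        · simp [inl_mem_SP]
        · simp [inr_mem_SP]
      rw [Finset.prod_set_coe (SP S) (f := fun p => (LSp p).index), e2, Finset.prod_disjSum]
      congr 1
      rw [Finset.prod_congr rfl (fun φ _ => show (LSp (Sum.inr φ : Pl F)).index = 2 from
        index_LSR φ), Finset.prod_const, Finset.card_univ, Nat.card_eq_fintype_card]
    rw [e1, card_real]
    have h1 := prod_LS_index_le hS.toFinset (fun v hv => hS.mem_toFinset.mpr (hPr.1 v hv))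
    rw [← Set.ncard_eq_toFinset_card _ hS] at h1
    have h2 := InfinitePlace.card_add_two_mul_card_eq_rank F
    have h3 := InfinitePlace.card_eq_nrRealPlaces_add_nrComplexPlaces F
    calc _ ≤ 4 ^ S.ncard * 2 ^ Module.finrank ℚ F * 2 ^ InfinitePlace.nrRealPlaces F :=
          Nat.mul_le_mul_right _ h1
      _ = 2 ^ (s + s) := by
          rw [show (4 : ℕ) = 2 ^ 2 by norm_num, ← pow_mul, ← pow_add, ← pow_add]
          congr 1
          omega
  have hD : (DD S).index ≤ 2 ^ (s + s) := (Subgroup.index_iInf_le _).trans hprod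
  have hD0 : (DD S).index ≠ 0 := Subgroup.index_iInf_ne_zero fun p : SP S => index_LSp_ne p.1
  have e := Subgroup.relIndex_mul_index (le_sup_left : DD S ≤ DD S ⊔ W)
  rw [Subgroup.relIndex_sup_left, hK, hWsq] at e
  refine ⟨fun h => hD0 (by rw [← e, h, mul_zero]), ?_⟩
  have h5 : 2 ^ (s + T.card) * (DD S ⊔ W).index ≤ 2 ^ (s + T.card) * ds.card := by
    calc _ = (DD S).index := e
      _ ≤ 2 ^ s * 2 ^ s := by rw [← pow_add]; exact hD
      _ ≤ 2 ^ s * (ds.card * 2 ^ T.card) := Nat.mul_le_mul_left _ h1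
      _ = _ := by ring
  exact Nat.le_of_mul_le_mul_left h5 (by positivity)

end Vale.Agent.P022G.Ax
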