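import Vale.Agent.P022G.Ax.Lam

/-!
# P022G, block AUX: primes of norm one modulo eight generate the class group modulo squares
-/

set_option linter.all false

noncomputable section

namespace Vale.Agent.P022G.Ax

open NumberField IsDedekindDomain Polynomial
open Vale.Agent.P011.Arith hiding ordv
open Vale.Agent.P022.C Vale.Agent.P022.C.H915

variable {F : Type} [Field F] [NumberField F]

def fc (k a : ZMod 8) : ZMod 2 := if a = 1 ∨ a = k then 0 else 1

theorem usq : ∀ a c : ZMod 8, a * c = 1 → a * a = 1 := by decide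

theorem fc5 : ∀ a b : ZMod 8, a * a = 1 → b * b = 1 → fc 5 (a * b) = fc 5 a + fc 5 b := by decide

theorem fc3 : ∀ a b : ZMod 8, a * a = 1 → b * b = 1 → fc 3 (a * b) = fc 3 a + fc 3 b := by decide

def ch (k : ZMod 8) (h : ∀ a b : ZMod 8, a * a = 1 → b * b = 1 → fc k (a * b) = fc k a + fc k b) :
    (ZMod 8)ˣ →* Multiplicative (ZMod 2) :=
  MonoidHom.mk' (fun u => Multiplicative.ofAdd (fc k u)) fun u v => by
    rw [← ofAdd_add, Units.val_mul, h _ _ (usq _ _ u.mul_inv) (usq _ _ v.mul_inv)]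

theorem ex_ch (k : ZMod 8) (h) {a : ZMod 8} (ha : a * a = 1) : ex (ch k h) a = fc k a := by
  have hu : IsUnit a := IsUnit.of_mul_eq_one _ ha
  rw [ex, dif_pos hu]
  show fc k hu.unit = _
  rw [hu.unit_spec]

abbrev V4 : Type := Multiplicative (ZMod 2) × Multiplicative (ZMod 2)

def La (S : Finset (HeightOneSpectrum (𝓞 F))) : Fˣ →* V4 :=
  (lam (ch 5 fc5) S).prod (lam (ch 3 fc3) S)

def pt (r : ZMod 8) : V4 := (Multiplicative.ofAdd (fc 5 r), Multiplicative.ofAdd (fc 3 r))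

theorem mem_map {S : Finset (HeightOneSpectrum (𝓞 F))}
    (hS : ∀ v : HeightOneSpectrum (𝓞 F), v.valuation F 2 ≠ 1 → v ∈ S) {t : 𝓞 F}
    (ht : ∀ v ∈ S, t ∈ v.asIdeal) {r : ZMod 8}
    (hr : ((Algebra.norm ℤ (1 + t)).natAbs : ZMod 8) = r) (hu : r * r = 1) :
    pt r ∈ (EE S).map (La S) := by
  have hx : ∀ v ∈ S, 1 + t ∉ v.asIdeal := fun v hv h => v.isPrime.ne_top
    ((Ideal.eq_top_iff_one _).2 (by simpa using v.asIdeal.sub_mem h (ht v hv)))
  have x0 : ((1 + t : 𝓞 F) : F) ≠ 0 := fun e => by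
    have e1 : (1 + t : 𝓞 F) = 0 := RingOfIntegers.ext e
    rw [e1, Algebra.norm_zero] at hr
    subst hr
    revert hu
    decide
  refine ⟨Units.mk0 _ x0, fun v hv _ => ?_, ?_⟩
  · rw [Units.val_mk0, o_int (hx v hv)]; exact Even.zero
  · refine Prod.ext ?_ ?_
    · show lam _ S _ = _
      rw [lam_int _ hS (Units.val_mk0 x0) hx, hr, ex_ch _ _ hu]; rfl
    · show lam _ S _ = _
      rw [lam_int _ hS (Units.val_mk0 x0) hx, hr, ex_ch _ _ hu]; rfl

theorem ex_M (S : Finset (HeightOneSpectrum (𝓞 F))) : ∃ M : ℕ, Odd M ∧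
    ∀ v ∈ S, ((2 * M : ℕ) : 𝓞 F) ∈ v.asIdeal := by
  classical
  refine ⟨∏ v ∈ S.filter fun v => v.valuation F 2 = 1, Ideal.absNorm v.asIdeal, ?_, fun v hv => ?_⟩
  · exact Finset.prod_induction _ _ (fun a b => Odd.mul) odd_one fun v hv =>
      odd_nr (Finset.mem_filter.1 hv).2
  · rw [Nat.cast_mul]
    by_cases h : v.valuation F 2 = 1
    · obtain ⟨c, hc⟩ := Finset.dvd_prod_of_mem (fun v : HeightOneSpectrum (𝓞 F) =>
        Ideal.absNorm v.asIdeal) (s := S.filter fun v => v.valuation F 2 = 1)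
        (Finset.mem_filter.2 ⟨hv, h⟩)
      rw [hc, Nat.cast_mul]
      exact Ideal.mul_mem_left _ _ (Ideal.mul_mem_right _ _ (Ideal.absNorm_mem _))
    · exact Ideal.mul_mem_right _ _ (by exact_mod_cast two_mem h)

theorem osq {M : ℕ} (h : Odd M) : (M : ZMod 8) * M = 1 := by
  obtain ⟨k, rfl⟩ := h
  push_cast
  generalize (k : ZMod 8) = a
  revert a
  decide

theorem opow {r : ZMod 8} (h : r * r = 1) {n : ℕ} (hn : Odd n) : r ^ n = r := by
  obtain ⟨k, rfl⟩ := hn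
  rw [pow_succ, pow_mul, sq, h, one_pow, one_mul]

theorem card_odd (hF : Odd (Module.finrank ℚ F)) {S : Finset (HeightOneSpectrum (𝓞 F))}
    (hS : ∀ v : HeightOneSpectrum (𝓞 F), v.valuation F 2 ≠ 1 → v ∈ S) :
    4 ≤ Nat.card ((EE S).map (La S)) := by
  obtain ⟨M, hM, h⟩ := ex_M S
  have k : ∀ (c : ℕ) (r : ZMod 8), r * r = 1 → 1 + 2 * (c : ZMod 8) = r →
      pt r ∈ (EE S).map (La S) := fun c r hr e => by
    refine mem_map hS (t := ((2 * M * (M * c) : ℕ) : 𝓞 F)) (fun v hv => ?_) ?_ hr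
    · rw [Nat.cast_mul]; exact Ideal.mul_mem_right _ _ (h v hv)
    · have e1 : (1 + ((2 * M * (M * c) : ℕ) : 𝓞 F)) =
          algebraMap ℤ (𝓞 F) ((1 + 2 * M * (M * c) : ℕ) : ℤ) := by simp
      rw [e1, Algebra.norm_algebraMap, RingOfIntegers.rank, Int.natAbs_pow, Int.natAbs_natCast,
        Nat.cast_pow]
      have e2 : ((1 + 2 * M * (M * c) : ℕ) : ZMod 8) = r := by
        rw [← e]; push_cast; linear_combination (2 * (c : ZMod 8)) * osq hM
      rw [e2, opow hr hF]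
  have h3 := k 1 3 (by decide) (by decide)
  have h5 := k 2 5 (by decide) (by decide)
  have e : (EE S).map (La S) = ⊤ := by
    rw [eq_top_iff]
    intro z _
    have c : ∀ z : V4, z = 1 ∨ z = pt 3 ∨ z = pt 5 ∨ z = pt 3 * pt 5 := by decide
    rcases c z with rfl | rfl | rfl | rfl
    exacts [Subgroup.one_mem _, h3, h5, Subgroup.mul_mem _ h3 h5]
  rw [e, Subgroup.card_top]
  simp

theorem norm_quad {k F : Type} [Field k] [Field F] [Algebra k F] [FiniteDimensional k F]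
    [Algebra.IsSeparable k F] {m : ℕ} (hF : Module.finrank k F = 2 * m) {t : F} {c : k}
    (ht : t ^ 2 = algebraMap k F c) (hc : ¬ IsSquare c) :
    Algebra.norm k (1 + t) = (1 - c) ^ m := by
  have hi : IsIntegral k (1 + t) := Algebra.IsIntegral.isIntegral _
  let p : k[X] := X ^ 2 + (C (-2) * X + C (1 - c))
  have pd : (C (-2 : k) * X + C (1 - c)).degree < 2 :=
    lt_of_le_of_lt degree_linear_le (by norm_num)
  have pm : p.Monic := monic_X_pow_add pd
  have pn : p.natDegree = 2 := by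
    rw [natDegree_add_eq_left_of_degree_lt (by rwa [degree_X_pow]), natDegree_X_pow]
  have pz : aeval (1 + t) p = 0 := by
    simp only [p, map_add, map_pow, map_mul, aeval_X, aeval_C, map_sub, map_one, map_neg,
      map_ofNat]
    linear_combination ht
  have h2 : 2 ≤ (minpoly k (1 + t)).natDegree := by
    rw [minpoly.two_le_natDegree_iff hi]
    rintro ⟨q, hq⟩
    refine hc ⟨q - 1, (algebraMap k F).injective ?_⟩
    rw [← ht, map_mul, map_sub, map_one, hq]
    ring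
  have e : p = minpoly k (1 + t) :=
    eq_of_monic_of_dvd_of_natDegree_le (minpoly.monic hi) pm (minpoly.dvd k _ pz) (pn ▸ h2)
  haveI : Module.Free k (IntermediateField.adjoin k {1 + t}) := Module.Free.of_divisionRing _ _
  haveI : Module.Free (IntermediateField.adjoin k {1 + t}) F := Module.Free.of_divisionRing _ _
  have e1 := Module.finrank_mul_finrank k (IntermediateField.adjoin k {1 + t}) F
  rw [IntermediateField.adjoin.finrank hi, ← e, pn, hF] at e1
  have e2 := Algebra.PowerBasis.norm_gen_eq_coeff_zero_minpoly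
    (IntermediateField.adjoin.powerBasis hi)
  rw [IntermediateField.adjoin.powerBasis_gen, IntermediateField.adjoin.powerBasis_dim,
    IntermediateField.minpoly_gen, ← e, pn] at e2
  rw [Algebra.norm_eq_norm_adjoin k (1 + t), e2, Nat.eq_of_mul_eq_mul_left two_pos e1]
  simp [p]

theorem card_quad {m : ℕ} (hm : Odd m) (hF : Module.finrank ℚ F = 2 * m) {d : ℤ}
    (hd : d = -1 ∨ d = 2 ∨ d = -2) {s : F} (hs : s ^ 2 = d)
    {S : Finset (HeightOneSpectrum (𝓞 F))}
    (hS : ∀ v : HeightOneSpectrum (𝓞 F), v.valuation F 2 ≠ 1 → v ∈ S) :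
    2 ≤ Nat.card ((EE S).map (La S)) := by
  obtain ⟨M, hM, h⟩ := ex_M S
  have M0 : (M : ℚ) ≠ 0 := Nat.cast_ne_zero.2 hM.pos.ne'
  have nd : ¬ IsSquare (d : ℚ) := by
    rw [Rat.isSquare_intCast_iff]
    rintro ⟨a, ha⟩
    rcases hd with rfl | rfl | rfl
    · nlinarith [mul_self_nonneg a]
    · exact Int.prime_two.not_isSquare ⟨a, ha⟩
    · nlinarith [mul_self_nonneg a]
  obtain ⟨σ, hσ⟩ : ∃ σ : 𝓞 F, algebraMap (𝓞 F) F σ = s := ⟨⟨s, IsIntegral.of_pow (n := 2) two_pos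
    (by rw [hs]; exact isIntegral_algebraMap (x := d))⟩, rfl⟩
  have σ2 : σ ^ 2 = d := RingOfIntegers.ext (by
    show algebraMap (𝓞 F) F _ = algebraMap (𝓞 F) F _
    rw [map_pow, hσ, hs, map_intCast])
  have k : ∀ (c n : ℕ) (r : ZMod 8), c ≠ 0 → r * r = 1 → (2 : ℤ) ∣ c ^ 2 * d →
      (1 - (c * M) ^ 2 * d : ℤ).natAbs = n → (n : ZMod 8) = r →
      pt r ∈ (EE S).map (La S) := fun c n r c0 hr ⟨b, hb⟩ e1 e => by
    refine mem_map hS (t := (c * M : ℕ) * σ) (fun v hv => v.isPrime.mem_of_pow_mem 2 ?_) ?_ hr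
    · have e3 : (((c * M : ℕ) : 𝓞 F) * σ) ^ 2 = ((2 * M : ℕ) : 𝓞 F) * (M * b) := by
        have := congrArg (Int.cast : ℤ → 𝓞 F) hb
        push_cast at this ⊢
        rw [mul_pow, σ2]
        linear_combination (M : 𝓞 F) ^ 2 * this
      rw [e3]; exact Ideal.mul_mem_right _ _ (h v hv)
    · have e3 : Algebra.norm ℤ (1 + ((c * M : ℕ) : 𝓞 F) * σ) = (1 - (c * M) ^ 2 * d) ^ m := by
        apply Int.cast_injective (α := ℚ)
        rw [Algebra.coe_norm_int]
        have e4 : ((1 + ((c * M : ℕ) : 𝓞 F) * σ : 𝓞 F) : F) = 1 + (c * M : ℕ) * s := by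
          show algebraMap (𝓞 F) F _ = _
          rw [map_add, map_one, map_mul, map_natCast, hσ]
        rw [e4, norm_quad hF (c := (c * M) ^ 2 * d) (by rw [mul_pow, hs]; simp)]
        · push_cast; rfl
        · rintro ⟨q, hq⟩
          have c1 : (c : ℚ) ≠ 0 := Nat.cast_ne_zero.2 c0
          refine nd ⟨q / (c * M), ?_⟩
          field_simp
          linear_combination hq
      rw [e3, Int.natAbs_pow, e1, Nat.cast_pow, e, opow hr hm]
  have q := osq hM
  have p1 : 1 ≤ M * M := Nat.mul_pos hM.pos hM.pos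
  obtain ⟨r, r1, r2⟩ : ∃ r : ZMod 8, pt r ≠ 1 ∧ pt r ∈ (EE S).map (La S) := by
    rcases hd with rfl | rfl | rfl
    · refine ⟨5, by decide, k 2 (1 + 4 * (M * M)) 5 two_ne_zero (by decide) (by decide) ?_ ?_⟩
      · rw [← Int.natAbs_natCast (1 + 4 * (M * M))]; congr 1; push_cast; ring
      · push_cast; rw [q]; decide
    · refine ⟨7, by decide, k 2 (8 * (M * M - 1) + 7) 7 two_ne_zero (by decide) (by decide) ?_ ?_⟩
      · rw [← Int.natAbs_natCast (8 * (M * M - 1) + 7), ← Int.natAbs_neg]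
        congr 1; push_cast [Nat.cast_sub p1]; ring
      · push_cast [Nat.cast_sub p1]; rw [q]; decide
    · refine ⟨3, by decide, k 1 (1 + 2 * (M * M)) 3 one_ne_zero (by decide) (by decide) ?_ ?_⟩
      · rw [← Int.natAbs_natCast (1 + 2 * (M * M))]; congr 1; push_cast; ring
      · push_cast; rw [q]; decide
  exact (Subgroup.one_lt_card_iff_ne_bot _).2 fun e => r1 (Subgroup.mem_bot.1 (e ▸ r2))

/-- **the theorem for a number field** -/
theorem fld (Al : HeightOneSpectrum (𝓞 F) → Prop) (ds : Finset Fˣ)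
    (hA : ∀ v, Al v → (Ideal.absNorm v.asIdeal : ZMod 8) = 1)
    (hN : ∀ x : Fˣ, ¬ (∃ d ∈ ds, x * d ∈ Sq F) →
      ∀ S₁ : Set (HeightOneSpectrum (𝓞 F)), S₁.Finite → ∃ v ∉ S₁, Al v ∧ x ∉ LS (v.valuation F))
    (hc : ∀ S : Finset (HeightOneSpectrum (𝓞 F)),
      (∀ v : HeightOneSpectrum (𝓞 F), v.valuation F 2 ≠ 1 → v ∈ S) →
      ds.card ≤ Nat.card ((EE S).map (La S))) :
    ∃ T : Finset (HeightOneSpectrum (𝓞 F)), (∀ w ∈ T, Al w) ∧
      ∀ v : HeightOneSpectrum (𝓞 F), v.valuation F 2 = 1 → v ∉ T →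
        ∃ y : F, y ≠ 0 ∧ Odd (ordv v y) ∧ ∀ v' : HeightOneSpectrum (𝓞 F),
          v'.valuation F 2 = 1 → v' ∉ T → v' ≠ v → Even (ordv v' y) := by
  obtain ⟨S₀, -, hS, hPr⟩ := exists_Pr (F := F) ∅ Set.finite_empty
  obtain ⟨S, rfl⟩ := hS.exists_finset_coe
  obtain ⟨T, hT, h1, h2⟩ := ex_T Al _ hN hS hPr
  obtain ⟨c1, c2⟩ := cnt hS hPr hT ds h2
  refine ⟨T, h1, big hPr (split (La S) _ _ (sup_le (fun x hx => ?_) fun x hx => ?_) c1
    (c2.trans (hc S hPr.1)))⟩
  · exact Prod.ext (lam_D _ hPr.1 hx) (lam_D _ hPr.1 hx)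
  · exact Prod.ext (lam_W _ (fun w hw => hA w (h1 w hw)) hx)
      (lam_W _ (fun w hw => hA w (h1 w hw)) hx)

end Vale.Agent.P022G.Ax
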