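import Vale.Agent.P022G.Ax.Fld
import Vale.Agent.P022G.Obs.Defs
import Vale.Agent.P022E.GW.Fix
import Vale.Agent.P022E.GW.One
import Vale.Agent.P022E.GW.Hyp
import Vale.Agent.P022D.Dk.Mono

/-!
# P022G, block AUX: split primes which remove the ramification
-/

set_option linter.all false

noncomputable section

namespace Vale.Agent.P022G.Ax

open NumberField IsDedekindDomain
open Vale.Agent.P022 Vale.Agent.P022.C Vale.Agent.P022.H443 Vale.Agent.P022.H916
open Vale.Agent.P027M.S (Pr Inert)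
open Vale.Agent.P022D.Sel (ov)
open Vale.Agent.P022D.L2c (Hm up)
open Vale.Agent.P022D.Dk (Cy8 H8)
open Vale.Agent.P022E.GW
open Vale.Agent.P022E.GW.Kc Vale.Agent.P022E.GW.Fx2
open Vale.Agent.P022G.Obs (FX)
open Pointwise

/-- the primes outside `A` are principal up to `A` and squares -/
def Big2 (L : Type) [Field L] [NumberField L] (A : Finset ℕ) : Prop :=
  ∀ v ∉ ov L A, ∃ y : L, y ≠ 0 ∧ Odd (ordv v y) ∧ ∀ v' ∉ ov L A, v' ≠ v → Even (ordv v' y)

theorem fx_of {L : Type} [Field L] [NumberField L] (j : L →+* Qb) {T : Finset ℕ} (hB : Big2 L T)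
    (h2 : 2 ∈ T) (hT : ∀ l ∈ T, l = 0 ∨ l.Prime) : FX (GK j) T := by
  classical
  intro F _ _ _ w ho hw
  obtain ⟨U, hU, hU0⟩ := ho
  obtain ⟨n, n0, hn⟩ := fin_ram U hU
  have fin : {v : Pr L | (n : 𝓞 L) ∈ v.asIdeal ∧ v ∉ ov L T}.Finite :=
    (Ideal.finite_factors (I := Ideal.span {(n : 𝓞 L)}) (by simpa using n0)).subset fun v hv =>
      Ideal.dvd_span_singleton.2 hv.1
  choose Pv p1 p2 using ex_above j
  choose! π π0 o1 o2 using hB
  have k : ∀ v : Pr L, v ∉ ov L T → ∃ c : F, ∀ g ∈ GK j, Inert (Pv v) g →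
      w g = c * up F (kq (j (π v)) g) := fun v hv => by
    obtain ⟨l, hl, m⟩ := prime_mem v
    have lT : l ∉ T := fun k => hv ⟨l, k, hl.ne_zero, m⟩
    have hO : Ov l (Pv v) := ⟨hl, p1 v, (nat_mem j (p2 v) l).1 m⟩
    obtain ⟨i₀, a1, a2, a3⟩ := ex_ram j (π0 v hv) v (p1 v) (p2 v) (o1 v hv)
    exact ⟨w i₀, fun g b1 b2 => line hO (fun e => lT (e ▸ h2))
      (fun a p b q => (hw l lT _ hO a p.1 p.2).1 b q.1 q.2) ⟨U, hU, hU0⟩
      (fun g p => p.1 _) ⟨a1, a2⟩ a3 g ⟨b1, b2⟩⟩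
  choose! c hc using k
  refine ⟨fun g => ∑ v ∈ fin.toFinset, c v * up F (kq (j (π v)) g), ?_, ?_⟩
  · have e : (fun x : GK j => ∑ v ∈ fin.toFinset, c v * up F (kq (j (π v)) x)) =
        ∑ v ∈ fin.toFinset, c v • fun x : GK j => up F (kq (j (π v)) x) := by
      funext x
      simp [Finset.sum_apply]
    show _ ∈ Hm F (GK j)
    rw [e]
    refine Submodule.sum_mem _ fun v _ => Submodule.smul_mem _ _ ⟨?_, fun x y => ?_⟩
    · exact ((kq_lc _).comp_continuous continuous_subtype_val).comp (up F)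
    · show up F (kq _ (x * y : GQ)) = _
      rw [kq_addL j _ x.2 y.2, map_add]
  · intro l lT P hO i hi hI
    obtain ⟨v, hv, m⟩ := ex_below j hO.1.ne_zero hO.2.1 hO.2.2
    have o := not_ov hT hO.1 lT m
    have z : ∀ v' ∈ fin.toFinset, v' ≠ v → c v' * up F (kq (j (π v')) i) = 0 := fun v' a b => by
      have a' := (fin.mem_toFinset.1 a).2
      rw [kq_even j (π0 v' a') v hO.2.1 hv (two_not j h2 o hv)
        (o2 v' a' v o b.symm) hi hI, map_zero, mul_zero]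
    by_cases hS : v ∈ fin.toFinset
    · show ∑ v ∈ fin.toFinset, _ = _
      rw [Finset.sum_eq_single_of_mem v hS z]
      obtain ⟨g, rfl⟩ := exists_smul j (p1 v) hO.2.1 ((p2 v).trans hv.symm)
      have g1 := (GK j).inv_mem g.2
      have e1 := (hw l lT _ hO i hi hI).2 _ g1
      have e2 := kq_conj (j (π v)) (g : GQ)⁻¹ i
      rw [inv_inv] at e1 e2
      rw [g1 (π v)] at e2
      rw [← e1, hc v o _ ((GK j).mul_mem ((GK j).mul_mem g1 hi) g.2) (inert_conj hI), e2]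
    · show ∑ v ∈ fin.toFinset, _ = _
      rw [Finset.sum_eq_zero fun v' a => z v' a fun e => hS (e ▸ a)]
      refine (hU0 i ⟨hi, hn P hO.2.1 (fun e => hS (fin.mem_toFinset.2 ⟨?_, o⟩)) i hI⟩).symm
      exact (nat_mem j hv n).2 e

theorem fix_sq {g : GQ} {w z : Qb} (h : g w = w) (e : z ^ 2 = w ^ 2) : g z = z := by
  rcases sq_eq_sq_iff_eq_or_eq_neg.1 e with rfl | rfl
  · exact h
  · rw [map_neg, h]

/-- the eighth roots of unity -/
theorem cy8_iff (g : GQ) : Cy8 g ↔ kq (-1) g = 0 ∧ kq 2 g = 0 := by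
  have hi := rt_sq (-1)
  have hr := rt_sq 2
  have r0 : rt 2 ≠ 0 := root_ne two_ne_zero hr
  rw [kq_zero hi, kq_zero hr]
  generalize rt (-1) = i at *
  generalize rt 2 = r at *
  have z2 : ((1 + i) / r) ^ 2 = i := by
    rw [div_pow, hr]; linear_combination (1 / 2 : Qb) * hi
  constructor
  · intro h
    have h1 : g i = i := h i (by linear_combination (i ^ 6 - i ^ 4 + i ^ 2 - 1) * hi)
    have h2 := h ((1 + i) / r) (by
      rw [show (8 : ℕ) = 2 * 4 from rfl, pow_mul, z2]; linear_combination (i ^ 2 - 1) * hi)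
    have i0 : 1 + i ≠ 0 := fun e => by
      have : i = -1 := by linear_combination e
      rw [this] at hi
      norm_num at hi
    rw [map_div₀, map_add, map_one, h1, div_eq_div_iff ((map_ne_zero g).2 r0) r0] at h2
    exact ⟨h1, (mul_left_cancel₀ i0 h2).symm⟩
  · rintro ⟨h1, h2⟩ ζ hζ
    have h3 : g ((1 + i) / r) = (1 + i) / r := by rw [map_div₀, map_add, map_one, h1, h2]
    have e : (ζ ^ 2 - 1) * (ζ ^ 2 + 1) * (ζ ^ 2 - i) * (ζ ^ 2 + i) = 0 := by
      linear_combination hζ - (ζ ^ 4 - 1) * hi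
    simp only [mul_eq_zero] at e
    rcases e with ((e | e) | e) | e
    · exact fix_sq (map_one g) (by linear_combination e)
    · exact fix_sq h1 (by linear_combination e - hi)
    · exact fix_sq h3 (by rw [z2]; linear_combination e)
    · exact fix_sq (w := i * ((1 + i) / r)) (by rw [map_mul, h1, h3])
        (by rw [mul_pow, z2, hi]; linear_combination e)

theorem h8_open : IsOpen (H8 : Set GQ) := by
  have e : (H8 : Set GQ) = (MulAction.stabilizer GQ (rt (-1)) : Set GQ) ∩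
      MulAction.stabilizer GQ (rt 2) := by
    ext g
    refine (cy8_iff g).trans ?_
    rw [kq_zero (rt_sq _), kq_zero (rt_sq _)]
    rfl
  rw [e]
  exact (stab_open _).inter (stab_open _)

theorem mod8 {l : ℕ} {P : Ideal (𝓞 Qb)} {φ : GQ} (h : Ov l P) (h2 : l ≠ 2) (hφ : Fb l P φ)
    (hc : Cy8 φ) : l % 8 = 1 := by
  obtain ⟨z, hz⟩ := IsAlgClosed.exists_pow_nat_eq (-1 : Qb) (n := 4) (by norm_num)
  let Z : 𝓞 Qb := ⟨z, IsIntegral.of_pow (n := 4) (by norm_num) (by rw [hz]; exact isIntegral_one.neg)⟩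
  have z4 : Z ^ 4 = -1 := RingOfIntegers.ext hz
  have z8 : Z ^ 8 = 1 := by rw [show (8 : ℕ) = 4 * 2 from rfl, pow_mul, z4]; norm_num
  have e : φ • Z = Z := RingOfIntegers.ext (hc z (congrArg (fun x : 𝓞 Qb => (x : Qb)) z8))
  have k := hφ Z
  rw [e, ← Nat.div_add_mod l 8, pow_add, pow_mul, z8, one_pow, one_mul] at k
  have n2 : (2 : 𝓞 Qb) ∉ P := fun q =>
    h2 (One.two_pr h.1 Nat.prime_two h.2.1 h.2.2 (by exact_mod_cast q))
  have o := Nat.odd_iff.1 (h.1.odd_of_ne_two h2)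
  have c : l % 8 = 1 ∨ l % 8 = 3 ∨ l % 8 = 5 ∨ l % 8 = 7 := by omega
  rcases c with c | c | c | c
  · exact c
  all_goals rw [c] at k; refine absurd ?_ n2
  · have e1 : (2 : 𝓞 Qb) = (Z - Z ^ 3) * (-Z ^ 3 * (1 + Z ^ 2)) := by
      linear_combination (2 - Z ^ 4) * z4
    rw [e1]; exact P.mul_mem_right _ k
  · have e1 : (2 : 𝓞 Qb) = (Z - Z ^ 5) * (-Z ^ 3) := by
      linear_combination (2 - Z ^ 4) * z4
    rw [e1]; exact P.mul_mem_right _ k
  · have e1 : (2 : 𝓞 Qb) = (Z - Z ^ 7) * (-Z ^ 3 * (1 - Z ^ 2)) := by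
      linear_combination (2 - Z ^ 4 - Z ^ 6 + Z ^ 8) * z4
    rw [e1]; exact P.mul_mem_right _ k

/-- **density**: a coset of an open subgroup `C` of `B` is replaced by an odd power -/
theorem frob_in (V : Subgroup GQ) (hV : IsOpen (V : Set GQ)) (g : GQ) (S : Finset ℕ) :
    ∃ l ∉ S, ∃ (P : Ideal (𝓞 Qb)) (φ : GQ), Ov l P ∧ Fb l P φ ∧
      ∃ m : ℕ, Odd m ∧ ∃ v ∈ V, φ = g ^ m * v := by
  have hW := P022D.Sel.opn_core V hV
  haveI := H916.isGalois_Qb
  haveI : Finite (GQ ⧸ V.normalCore) := Subgroup.quotient_finite_of_isOpen _ hW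
  let r := QuotientGroup.mk' V.normalCore
  have ho : IsOpen {x : GQ | r x = 1} := by
    convert hW using 1
    ext x
    exact QuotientGroup.eq_one_iff x
  obtain ⟨a, o, oo, e⟩ := Nat.exists_eq_two_pow_mul_odd (orderOf_pos (r g)).ne'
  have d : orderOf (r (g ^ o)) ∣ 2 ^ a := orderOf_dvd_of_pow_eq_one (by
    rw [map_pow, ← pow_mul, mul_comm, ← e, pow_orderOf_eq_one])
  obtain ⟨φ, ⟨l, l1, l2, P, p1, p2, p3⟩, m, hm, e1⟩ := P027M.TW.dens _ r ho S (g ^ o) {2}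
    (by simpa using Nat.prime_two) (by norm_num) fun p hp hd => Finset.mem_singleton.2
      ((Nat.prime_dvd_prime_iff_eq hp Nat.prime_two).1 (hp.dvd_of_dvd_pow (hd.trans d)))
  obtain ⟨m', om, e2⟩ : ∃ m', Odd m' ∧ r φ = r (g ^ o) ^ m' := by
    by_cases q : r (g ^ o) = 1
    · exact ⟨1, odd_one, by rw [e1, q, one_pow, one_pow]⟩
    · refine ⟨m, ?_, e1⟩
      obtain ⟨b, -, hb⟩ := (Nat.dvd_prime_pow Nat.prime_two).1 d
      rw [hb] at hm
      have b0 : b ≠ 0 := fun z => q (orderOf_eq_one_iff.1 (by rw [hb, z, pow_zero]))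
      exact Nat.coprime_two_right.1 (hm.of_dvd_right (dvd_pow_self 2 b0))
  rw [← map_pow, ← pow_mul] at e2
  refine ⟨l, l2, P, φ, ⟨l1, p1, p2⟩, p3, o * m', oo.mul om, _,
    V.normalCore_le (QuotientGroup.eq.1 e2.symm), by rw [mul_inv_cancel_left]⟩

theorem odd_neg {g : GQ} {w : Qb} (h : g w = -w) {m : ℕ} (hm : Odd m) : (g ^ m) w = -w := by
  have k : ∀ n : ℕ, (g ^ n) w = (-1) ^ n * w := fun n => by
    induction n with
    | zero => simp
    | succ n ih => rw [pow_succ', AlgEquiv.mul_apply, ih, map_mul, h, map_pow, map_neg, map_one]; ring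
  rw [k, hm.neg_one_pow, neg_one_mul]

theorem lin1 (H : Subgroup GQ) {a b : GQ → ZMod 2} (ha : ∀ g ∈ H, ∀ h ∈ H, a (g * h) = a g + a h)
    (hb : ∀ g ∈ H, ∀ h ∈ H, b (g * h) = b g + b h) (h : ∀ g ∈ H, b g = 0 → a g = 0) :
    (∀ g ∈ H, a g = 0) ∨ ∀ g ∈ H, a g + b g = 0 := by
  by_cases c : ∀ g ∈ H, a g = 0
  · exact Or.inl c
  push Not at c
  obtain ⟨s, s1, s2⟩ := c
  refine Or.inr fun g hg => ?_
  have h1 := h s s1
  have h2 := h g hg
  have h3 := h _ (H.mul_mem hg s1)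
  rw [ha g hg s s1, hb g hg s s1] at h3
  revert s2 h1 h2 h3
  generalize a g = x, a s = y, b g = z, b s = t
  revert x y z t
  decide

/-- the condition on the field -/
def Fd (H : Subgroup GQ) : Prop := Odd H.index ∨ ∃ d : ℤ, (d = -1 ∨ d = 2 ∨ d = -2) ∧
  (∀ g ∈ H, kq (d : Qb) g = 0) ∧ ∃ m, Odd m ∧ H.index = 2 * m

/-- `a` is a prime with a Frobenius element in `U` -/
def Sp (U : Subgroup GQ) (a : ℕ) : Prop :=
  a % 8 = 1 ∧ ∃ (P : Ideal (𝓞 Qb)) (φ : GQ), Ov a P ∧ Fb a P φ ∧ φ ∈ U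

theorem nr_one {L : Type} [Field L] [NumberField L] {v : Pr L} {a : ℕ} (ha : a.Prime)
    (h8 : a % 8 = 1) (hv : (a : 𝓞 L) ∈ v.asIdeal) : (Ideal.absNorm v.asIdeal : ZMod 8) = 1 := by
  have d := Ideal.absNorm_dvd_absNorm_of_le ((Ideal.span_singleton_le_iff_mem _).2 hv)
  have e : (a : 𝓞 L) = algebraMap ℤ (𝓞 L) (a : ℤ) := by simp
  rw [Ideal.absNorm_span_singleton, e, Algebra.norm_algebraMap, Int.natAbs_pow,
    Int.natAbs_natCast] at d
  obtain ⟨k, -, hk⟩ := (Nat.dvd_prime_pow ha).1 d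
  have e1 : (a : ZMod 8) = 1 := by rw [← ZMod.natCast_mod a 8, h8, Nat.cast_one]
  rw [hk, Nat.cast_pow, e1, one_pow]

theorem ax0 {L : Type} [Field L] [NumberField L] (j : L →+* Qb) (U : Subgroup GQ)
    (hU : IsOpen (U : Set GQ)) (hj : IsOpen (GK j : Set GQ))
    (hp : ∀ g ∈ GK j, ∃ m, Odd m ∧ g ^ m ∈ U) (S : Finset ℕ) (ds : Finset Lˣ)
    (hd : ∀ x : Lˣ, (∀ g ∈ GK j, Cy8 g → kq (j x) g = 0) →
      ∃ d ∈ ds, ∀ g ∈ GK j, kq (j x) g + kq (j d) g = 0)
    (hc : ∀ S : Finset (Pr L), (∀ v : Pr L, v.valuation L 2 ≠ 1 → v ∈ S) →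
      ds.card ≤ Nat.card ((EE S).map (La S))) :
    ∃ A : Finset ℕ, (∀ a ∈ A, a ∉ S ∧ Sp U a) ∧ ∀ T : Finset ℕ, 2 ∈ T → A ⊆ T →
      (∀ l ∈ T, l = 0 ∨ l.Prime) → FX (GK j) T := by
  classical
  obtain ⟨T₀, h1, h2⟩ := fld (fun v : Pr L => ∃ a ∉ S, Sp U a ∧ (a : 𝓞 L) ∈ v.asIdeal) ds
    (by rintro v ⟨a, -, ⟨a1, P, φ, a2, -⟩, a3⟩; exact nr_one a2.1 a1 a3) (fun x hx S₁ hS₁ => by
      have c : ¬ ∀ g ∈ GK j, Cy8 g → kq (j x) g = 0 := fun c => hx (by
        obtain ⟨d, d1, d2⟩ := hd x c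
        obtain ⟨z, hz⟩ := (kq_triv j ((x * d : Lˣ) : L)).1 fun g hg => by
          rw [Units.val_mul, kq_mulL j x.ne_zero d.ne_zero hg, d2 g hg]
        exact ⟨d, d1, P011.Arith.mem_Sq_iff.2 ⟨z, by rw [hz, sq]⟩⟩)
      push Not at c
      obtain ⟨g, g1, g2, g3⟩ := c
      have x0 : j x ≠ 0 := (map_ne_zero j).2 x.ne_zero
      have g4 := (kq_one x0 (rt_sq _) (g1 x)).1 ((z2 _).resolve_left g3)
      obtain ⟨m, om, gm⟩ := hp g g1
      choose lv l1 l2 using fun v : Pr L => prime_mem v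
      obtain ⟨l, lS, P, φ, hO, hF, n, on, u, ⟨⟨⟨u1, u2⟩, u3⟩, u4⟩, e⟩ :=
        frob_in (U ⊓ GK j ⊓ H8 ⊓ MulAction.stabilizer GQ (rt (j x)))
          (((hU.inter hj).inter h8_open).inter (stab_open _)) (g ^ m)
          (insert 2 (S ∪ hS₁.toFinset.image lv))
      simp only [Finset.mem_insert, Finset.mem_union, not_or] at lS
      have f1 : φ ∈ U := e ▸ U.mul_mem (U.pow_mem gm n) u1
      have f2 : φ ∈ GK j := e ▸ (GK j).mul_mem ((GK j).pow_mem ((GK j).pow_mem g1 m) n) u2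
      have f3 : φ ∈ H8 := e ▸ H8.mul_mem (H8.pow_mem (H8.pow_mem (x := g) g2 m) n) u3
      have f4 : φ (rt (j x)) = -rt (j x) := by
        have u5 : u (rt (j x)) = rt (j x) := u4
        rw [e, AlgEquiv.mul_apply, u5, odd_neg (odd_neg g4 om) on]
      obtain ⟨v, hv, mv⟩ := ex_below j hO.1.ne_zero hO.2.1 hO.2.2
      refine ⟨v, fun q => lS.2.2 (Finset.mem_image.2 ⟨v, hS₁.mem_toFinset.2 q,
        One.two_pr (l1 v) hO.1 v.isPrime (l2 v) mv⟩),
        ⟨l, lS.2.1, ⟨mod8 hO lS.1 hF f3, P, φ, hO, hF, f1⟩, mv⟩, fun q => ?_⟩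
      have := Ni.ls_fix j hO.2.1 hv q (rt_sq _) f2 (One.fr_dec hO.1.ne_zero hO.2.1 hF)
      exact ne_neg (root_ne x0 (rt_sq _)) (f4.symm.trans this)) hc
  choose! a a1 a2 a3 using h1
  refine ⟨T₀.image a, fun b hb => ?_, fun T t2 tA tp => fx_of j (fun v hv => ?_) t2 tp⟩
  · obtain ⟨w, hw, rfl⟩ := Finset.mem_image.1 hb
    exact ⟨a1 w hw, a2 w hw⟩
  · have k : ∀ v ∉ ov L T, v.valuation L 2 = 1 ∧ v ∉ T₀ := fun v hv =>
      ⟨by_contra fun q => hv ⟨2, t2, two_ne_zero, by exact_mod_cast two_mem q⟩, fun q =>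
        hv ⟨a v, tA (Finset.mem_image_of_mem a q), by
          obtain ⟨-, P, φ, o, -⟩ := a2 v q
          exact o.1.ne_zero, a3 v q⟩⟩
    obtain ⟨y, y0, y1, y2⟩ := h2 v (k v hv).1 (k v hv).2
    exact ⟨y, y0, y1, fun v' q r => y2 v' (k v' q).1 (k v' q).2 r⟩

theorem ax1 {L : Type} [Field L] [NumberField L] (j : L →+* Qb) (U : Subgroup GQ)
    (hU : IsOpen (U : Set GQ)) (hj : IsOpen (GK j : Set GQ))
    (hp : ∀ g ∈ GK j, ∃ m, Odd m ∧ g ^ m ∈ U) (hr : Module.finrank ℚ L = (GK j).index)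
    (hF : Fd (GK j)) (S : Finset ℕ) :
    ∃ A : Finset ℕ, (∀ a ∈ A, a ∉ S ∧ Sp U a) ∧ ∀ T : Finset ℕ, 2 ∈ T → A ⊆ T →
      (∀ l ∈ T, l = 0 ∨ l.Prime) → FX (GK j) T := by
  classical
  let t : Lˣ := Units.mk0 2 two_ne_zero
  have e1 : ∀ g, kq (j ((1 : Lˣ) : L)) g = 0 := fun g => kq_oneL j g
  have eb : j ((-1 : Lˣ) : L) = -1 := by simp
  have ec : j ((t : Lˣ) : L) = 2 := by rw [Units.val_mk0, map_ofNat]
  have ed : j ((-t : Lˣ) : L) = -2 := by rw [Units.val_neg, map_neg, ec]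
  have gb : ∀ g : GQ, g (-1) = -1 := fun g => by rw [map_neg, map_one]
  have gc : ∀ g : GQ, g 2 = 2 := fun g => map_ofNat g 2
  have bc : ∀ g : GQ, kq (-2) g = kq (-1) g + kq 2 g := fun g => by
    rw [← kq_mul (by norm_num) two_ne_zero (gb g) (gc g), neg_one_mul]
  have ab : ∀ (K : Subgroup GQ), ∀ g ∈ K, ∀ h ∈ K, kq (-1) (g * h) = kq (-1) g + kq (-1) h :=
    fun _ g _ h _ => kq_add (gb g) (gb h)
  have ac : ∀ (K : Subgroup GQ), ∀ g ∈ K, ∀ h ∈ K, kq 2 (g * h) = kq 2 g + kq 2 h :=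
    fun _ g _ h _ => kq_add (gc g) (gc h)
  rcases hF with hF | ⟨d, hd, hk, m, om, hm⟩
  · refine ax0 j U hU hj hp S {1, -1, t, -t} (fun x hx => ?_) fun S hS =>
      Finset.card_le_four.trans (card_odd (hr ▸ hF) hS)
    have st : ∀ g, kq 2 g = 0 ↔ g ∈ MulAction.stabilizer GQ (rt 2) := fun g => kq_zero (rt_sq _) g
    rcases lin1 (GK j ⊓ MulAction.stabilizer GQ (rt 2)) (a := kq (j x))
      (fun g a h b => kq_addL j _ a.1 b.1) (ab _)
      (fun g a b => hx g a.1 ((cy8_iff g).2 ⟨b, (st g).2 a.2⟩)) with c | c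
    · rcases lin1 (GK j) (a := kq (j x)) (fun g a h b => kq_addL j _ a b) (ac _)
        (fun g a b => c g ⟨a, (st g).1 b⟩) with c | c
      · exact ⟨1, by simp, fun g a => by rw [c g a, e1, add_zero]⟩
      · exact ⟨t, by simp, fun g a => by rw [ec, c g a]⟩
    · rcases lin1 (GK j) (a := fun g => kq (j x) g + kq (-1) g) (fun g a h b => by
        rw [kq_addL j _ a b, ab _ g a h b]; ring) (ac _)
        (fun g a b => c g ⟨a, (st g).1 b⟩) with c | c
      · exact ⟨-1, by simp, fun g a => by rw [eb, c g a]⟩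
      · exact ⟨-t, by simp, fun g a => by rw [ed, bc, ← add_assoc, c g a]⟩
  · obtain ⟨s, hs⟩ := (kq_triv j (d : L)).1 fun g a => by rw [map_intCast]; exact hk g a
    have cq : ∀ u : Lˣ, ∀ S : Finset (Pr L), (∀ v : Pr L, v.valuation L 2 ≠ 1 → v ∈ S) →
        ({1, u} : Finset Lˣ).card ≤ Nat.card ((EE S).map (La S)) := fun u S hS =>
      Finset.card_le_two.trans (card_quad om (hr.trans hm) hd hs.symm hS)
    by_cases d1 : d = -1
    · subst d1
      refine ax0 j U hU hj hp S {1, t} (fun x hx => ?_) (cq t)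
      rcases lin1 (GK j) (a := kq (j x)) (fun g a h b => kq_addL j _ a b) (ac _)
        (fun g a b => hx g a ((cy8_iff g).2 ⟨by simpa using hk g a, b⟩)) with c | c
      · exact ⟨1, by simp, fun g a => by rw [c g a, e1, add_zero]⟩
      · exact ⟨t, by simp, fun g a => by rw [ec, c g a]⟩
    · refine ax0 j U hU hj hp S {1, -1} (fun x hx => ?_) (cq (-1))
      rcases lin1 (GK j) (a := kq (j x)) (fun g a h b => kq_addL j _ a b) (ab _)
        (fun g a b => hx g a ((cy8_iff g).2 ⟨b, by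
          have := hk g a
          rcases hd.resolve_left d1 with rfl | rfl
          · simpa using this
          · rw [Int.cast_neg, Int.cast_ofNat, bc, b, zero_add] at this
            exact this⟩)) with c | c
      · exact ⟨1, by simp, fun g a => by rw [c g a, e1, add_zero]⟩
      · exact ⟨-1, by simp, fun g a => by rw [eb, c g a]⟩

/-- **the auxiliary primes** -/
theorem ax (H U : Subgroup GQ) (hH : IsOpen (H : Set GQ)) (hU : IsOpen (U : Set GQ))
    (hp : ∀ g ∈ H, ∃ m, Odd m ∧ g ^ m ∈ U) (hF : Fd H) (S : Finset ℕ) :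
    ∃ A : Finset ℕ, (∀ a ∈ A, a ∉ S ∧ Sp U a) ∧ ∀ T : Finset ℕ, 2 ∈ T → A ⊆ T →
      (∀ l ∈ T, l = 0 ∨ l.Prime) → FX H T := by
  have hfin : FiniteDimensional ℚ (H916.FF H) := H916.finU H hH
  have hNF : NumberField (H916.FF H) :=
    { to_charZero := inferInstance, to_finiteDimensional := hfin }
  let j : H916.FF H →+* Qb := (IntermediateField.fixedField H).val.toRingHom
  have hj : GK j = H := Subgroup.ext fun g =>
    ⟨fun h => Hy.fixed hH fun x hx => h (⟨x, hx⟩ : H916.FF H), fun h x => by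
      have h1 := x.2
      rw [IntermediateField.mem_fixedField_iff] at h1
      exact h1 _ h⟩
  have hr : Module.finrank ℚ (H916.FF H) = H.index := by
    haveI := H916.isGalois_Qb
    have hfix : (IntermediateField.fixedField H).fixingSubgroup = H :=
      InfiniteGalois.fixingSubgroup_fixedField ⟨H, OpenSubgroup.isClosed ⟨H, hH⟩⟩
    exact (IntermediateField.finrank_eq_fixingSubgroup_index (F := ℚ) Qb
      (IntermediateField.fixedField H)).trans (congrArg Subgroup.index hfix)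
  have := ax1 j U hU (hj.symm ▸ hH) (hj.symm ▸ hp) (hj.symm ▸ hr) (hj.symm ▸ hF) S
  rwa [hj] at this

/-- over `ℚ` no auxiliary prime is needed -/
theorem fx_top {T : Finset ℕ} (h2 : 2 ∈ T) (hT : ∀ l ∈ T, l = 0 ∨ l.Prime) : FX ⊤ T := by
  have e : GK (algebraMap ℚ Qb) = ⊤ := eq_top_iff.2 fun g _ x => g.commutes x
  rw [← e]
  refine fx_of _ (fun v _ => ?_) h2 hT
  haveI : IsPrincipalIdealRing (𝓞 ℚ) := IsPrincipalIdealRing.of_surjective
    Rat.ringOfIntegersEquiv.symm Rat.ringOfIntegersEquiv.symm.surjective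
  obtain ⟨x, hx⟩ := (IsPrincipalIdealRing.principal v.asIdeal).principal
  have x0 : x ≠ 0 := fun z => v.ne_bot (by rw [hx, z]; exact Ideal.span_singleton_eq_bot.2 rfl)
  refine ⟨x, by simpa using x0, ?_, fun v' _ q => ?_⟩
  · rw [ordv, HeightOneSpectrum.valuation_of_algebraMap, v.intValuation_singleton x0 hx,
      WithZero.log_exp, neg_neg]
    exact odd_one
  · rw [o_int fun z => q (HeightOneSpectrum.ext (v.isMaximal.eq_of_le v'.isPrime.ne_top (by
      rw [hx]; exact (Ideal.span_singleton_le_iff_mem _).2 z)).symm)]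
    exact Even.zero

end Vale.Agent.P022G.Ax
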