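import Vale.Agent.P022G.Ax.Cnt
import Vale.Agent.P022.H915.NREC

/-!
# P022G, block AUX: the class group modulo squares
-/

set_option linter.all false

noncomputable section

namespace Vale.Agent.P022G.Ax

open NumberField IsDedekindDomain
open Vale.Agent.P011.Arith hiding ordv
open Vale.Agent.P022.C Vale.Agent.P022.C.H915

variable {F : Type} [Field F] [NumberField F]

theorem o_mul (v : HeightOneSpectrum (𝓞 F)) (x y : Fˣ) :
    ordv v ((x * y : Fˣ) : F) = ordv v (x : F) + ordv v (y : F) := by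
  rw [ordv, ordv, ordv, Units.val_mul, map_mul, WithZero.log_mul (by simp) (by simp)]
  ring

theorem o_one {v : HeightOneSpectrum (𝓞 F)} {x : F} (h : v.valuation F x = 1) : ordv v x = 0 := by
  rw [ordv, h, WithZero.log_one, neg_zero]

theorem o_int {v : HeightOneSpectrum (𝓞 F)} {x : 𝓞 F} (h : x ∉ v.asIdeal) :
    ordv v (x : F) = 0 :=
  o_one (valuation_eq_one_of_not_dvd fun e => h (Ideal.dvd_span_singleton.1 e))

theorem o_ls {v : HeightOneSpectrum (𝓞 F)} {x : Fˣ} (h : x ∈ LS (v.valuation F)) :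
    Even (ordv v (x : F)) := by
  obtain ⟨y, hy⟩ := LS_even h
  refine ⟨ordv v (y : F), ?_⟩
  rw [ordv, ordv, hy, sq, WithZero.log_mul (by simp) (by simp)]
  ring

theorem z2e {k : ℤ} (h : Even k) (a : ZMod 2) : k • a = 0 := by
  obtain ⟨j, rfl⟩ := h
  rw [add_smul]
  exact CharTwo.add_self_eq_zero _

variable (χ : (ZMod 8)ˣ →* Multiplicative (ZMod 2))

theorem G_mul (x y : Fˣ) : G χ ((x * y : Fˣ) : F) = G χ (x : F) + G χ (y : F) := by
  have h := G_div χ (x * y).ne_zero y.ne_zero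
  rw [Units.val_mul, mul_div_cancel_right₀ _ y.ne_zero] at h
  rw [Units.val_mul, h, sub_add_cancel]

/-- the part of the sum outside `S` -/
def lam (S : Finset (HeightOneSpectrum (𝓞 F))) : Fˣ →* Multiplicative (ZMod 2) :=
  MonoidHom.mk' (fun x => Multiplicative.ofAdd (G χ (x : F) -
    ∑ v ∈ S, ordv v (x : F) • ex χ (Ideal.absNorm v.asIdeal : ZMod 8))) fun x y => by
      rw [← ofAdd_add, G_mul]
      simp only [o_mul, add_smul, Finset.sum_add_distrib]
      congr 1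
      ring

theorem lam_eq (S : Finset (HeightOneSpectrum (𝓞 F))) (x : Fˣ) : lam χ S x =
    Multiplicative.ofAdd (G χ (x : F) -
      ∑ v ∈ S, ordv v (x : F) • ex χ (Ideal.absNorm v.asIdeal : ZMod 8)) := rfl

theorem lam_W {S T : Finset (HeightOneSpectrum (𝓞 F))}
    (hT : ∀ w ∈ T, (Ideal.absNorm w.asIdeal : ZMod 8) = 1) {x : Fˣ}
    (hx : x ∈ ((S : Set (HeightOneSpectrum (𝓞 F))) ∪ T).unit F) : lam χ S x = 1 := by
  rw [lam_eq, G, finsum_eq_sum_of_support_subset (s := S), sub_self, ofAdd_zero]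
  intro v hv
  by_contra h
  apply hv
  by_cases hw : v ∈ T
  · simp only [hT v hw, ex_one, smul_zero]
  · simp only [o_one (hx v fun k => k.elim h hw), zero_smul]

theorem two_ne {v : HeightOneSpectrum (𝓞 F)} (h : (2 : 𝓞 F) ∈ v.asIdeal) :
    v.valuation F 2 ≠ 1 := by
  exact ne_of_lt ((v.valuation_lt_one_iff_mem (K := F) 2).2 h)

theorem two_mem {v : HeightOneSpectrum (𝓞 F)} (h : v.valuation F 2 ≠ 1) :
    (2 : 𝓞 F) ∈ v.asIdeal := by
  exact (v.valuation_lt_one_iff_mem (K := F) 2).1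
    (lt_of_le_of_ne (v.valuation_le_one (K := F) (2 : 𝓞 F)) h)

theorem dy {v : HeightOneSpectrum (𝓞 F)} (h : ((8 : ℕ) : 𝓞 F) ∈ v.asIdeal) :
    v.valuation F 2 ≠ 1 := by
  have h2 : (2 : 𝓞 F) ∈ v.asIdeal := v.isPrime.mem_of_pow_mem 3 (by
    have e : (2 : 𝓞 F) ^ 3 = ((8 : ℕ) : 𝓞 F) := by norm_num
    rwa [e])
  exact two_ne h2

theorem close {w : Valuation F Z0} {x y f : F} (h8 : w 8 ≤ 1) (hy : y ≠ 0)
    (h1 : w (x / y ^ 2 - 1) < w 8) (h2 : w (f - y) < w (8 * y)) :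
    f ≠ 0 ∧ w (x / f ^ 2 - 1) ≤ w 8 := by
  have y0 : 0 < w y := zero_lt_iff.2 ((Valuation.ne_zero_iff _).2 hy)
  have h3 : w (f - y) < w y := h2.trans_le (by rw [map_mul]; exact mul_le_of_le_one_left' h8)
  have h4 : w f = w y := Valuation.map_eq_of_sub_lt _ h3
  have f0 : f ≠ 0 := fun e => by rw [e, map_zero] at h4; exact y0.ne h4
  refine ⟨f0, ?_⟩
  have e : x / f ^ 2 - 1 = (x / y ^ 2 - 1) * (y / f) ^ 2 + ((f - y) / f) * (-(y / f) - 1) := by
    field_simp
    ring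
  have c1 : w (y / f) = 1 := by rw [map_div₀, h4, div_self y0.ne']
  rw [e]
  refine Valuation.map_add_le _ ?_ ?_
  · rw [map_mul, map_pow, c1, one_pow, mul_one]; exact h1.le
  · rw [map_mul]
    have c2 : w (-(y / f) - 1) ≤ 1 := Valuation.map_sub_le _ (by rw [Valuation.map_neg, c1])
      (by rw [map_one])
    have c3 : w ((f - y) / f) ≤ w 8 := by
      rw [map_div₀, h4, div_le_iff₀ y0, ← map_mul]; exact h2.le
    exact (mul_le_of_le_one_right' c2).trans c3

theorem lam_D {S : Finset (HeightOneSpectrum (𝓞 F))}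
    (hS : ∀ v : HeightOneSpectrum (𝓞 F), v.valuation F 2 ≠ 1 → v ∈ S) {x : Fˣ}
    (hx : x ∈ DD (S : Set (HeightOneSpectrum (𝓞 F)))) : lam χ S x = 1 := by
  classical
  obtain ⟨h1, h2⟩ := mem_DD hx
  have h8 : ∀ v : HeightOneSpectrum (𝓞 F), v.valuation F 8 ≠ 0 := fun v =>
    (Valuation.ne_zero_iff _).2 (by norm_num)
  have k : ∀ v : HeightOneSpectrum (𝓞 F), ∃ y : Fˣ, v ∈ S →
      v.valuation F ((x : F) / (y : F) ^ 2 - 1) < v.valuation F 8 := fun v => by
    by_cases hv : v ∈ S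
    · obtain ⟨y, hy⟩ := LS_newton' (h1 v hv) (h8 v)
      exact ⟨y, fun _ => hy⟩
    · exact ⟨1, fun h => absurd h hv⟩
  choose y hy using k
  obtain ⟨f, hf⟩ := approx (Sum.inl '' (S : Set (HeightOneSpectrum (𝓞 F))))
    (S.finite_toSet.image _) (Sum.elim (fun v => (y v : F)) fun _ => 0)
    (Sum.elim (fun v => plAbv (Sum.inl v) (8 * (y v : F))) fun _ => 1) (by
      rintro (v | φ)
      · exact AbsoluteValue.pos _ (mul_ne_zero (by norm_num) (y v).ne_zero)
      · exact one_pos)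
  have c : ∀ v ∈ S, f ≠ 0 ∧ v.valuation F ((x : F) / f ^ 2 - 1) ≤ v.valuation F 8 := fun v hv =>
    close (v.valuation_le_one (K := F) (8 : 𝓞 F)) (y v).ne_zero (hy v hv)
      ((plAbv_lt v _ _).1 (hf _ ⟨v, hv, rfl⟩))
  obtain ⟨z, hz⟩ : ∃ z : Fˣ, ∀ v ∈ S,
      v.valuation F ((x : F) / (z : F) ^ 2 - 1) ≤ v.valuation F 8 := by
    by_cases f0 : f = 0
    · exact ⟨1, fun v hv => absurd f0 (c v hv).1⟩
    · exact ⟨Units.mk0 f f0, fun v hv => (c v hv).2⟩
  have b0 : (x : F) / (z : F) ^ 2 ≠ 0 := div_ne_zero x.ne_zero (pow_ne_zero _ z.ne_zero)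
  have n := NREC F 8 (by norm_num) 2 χ _ b0 fun v hv => by
    simpa using hz v (hS v (dy hv))
  have e0 : Nat.card {φ : F →+* ℝ // φ ((x : F) / (z : F) ^ 2) < 0} = 0 := by
    haveI : IsEmpty {φ : F →+* ℝ // φ ((x : F) / (z : F) ^ 2) < 0} := ⟨fun φ => by
      have := φ.2
      rw [map_div₀, map_pow] at this
      exact absurd this (not_lt.2 (div_nonneg (h2 _).le (sq_nonneg _)))⟩
    exact Nat.card_of_isEmpty
  rw [e0, zero_smul, add_zero] at n
  have n1 : G χ ((x : F) / (z : F) ^ 2) = 0 := n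
  have e2 := G_mul χ z z
  rw [G_div χ x.ne_zero (pow_ne_zero _ z.ne_zero), sq, ← Units.val_mul, e2,
    CharTwo.add_self_eq_zero, sub_zero] at n1
  rw [lam_eq, n1, Finset.sum_eq_zero fun v hv => z2e (o_ls (h1 v hv)) _, sub_zero, ofAdd_zero]

theorem odd_nr {v : HeightOneSpectrum (𝓞 F)} (h1 : v.valuation F 2 = 1) :
    Odd (Ideal.absNorm v.asIdeal) := by
  refine Nat.not_even_iff_odd.1 fun he => ?_
  have h2 : (2 : 𝓞 F) ∉ v.asIdeal := fun h => two_ne h h1
  haveI := v.isPrime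
  haveI : Finite (𝓞 F ⧸ v.asIdeal) := Ideal.finiteQuotientOfFreeOfNeBot _ v.ne_bot
  haveI : Fact (Nat.Prime 2) := ⟨Nat.prime_two⟩
  obtain ⟨a, ha⟩ := exists_prime_addOrderOf_dvd_card' (G := 𝓞 F ⧸ v.asIdeal) 2 (by
    rw [Ideal.absNorm_apply, Submodule.cardQuot_apply] at he
    exact even_iff_two_dvd.1 he)
  have h3 : (2 : 𝓞 F ⧸ v.asIdeal) * a = 0 := by
    have := addOrderOf_nsmul_eq_zero a
    rwa [ha, nsmul_eq_mul, Nat.cast_ofNat] at this
  rcases mul_eq_zero.1 h3 with h | h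
  · exact h2 (Ideal.Quotient.eq_zero_iff_mem.1 (by rw [map_ofNat]; exact h))
  · rw [h, addOrderOf_zero] at ha
    exact absurd ha (by norm_num)

/-- an integer which is prime to `S` -/
theorem lam_int {S : Finset (HeightOneSpectrum (𝓞 F))}
    (hS : ∀ v : HeightOneSpectrum (𝓞 F), v.valuation F 2 ≠ 1 → v ∈ S) {x : 𝓞 F} {u : Fˣ}
    (hu : (u : F) = x) (hx : ∀ v ∈ S, x ∉ v.asIdeal) :
    lam χ S u = Multiplicative.ofAdd (ex χ ((Algebra.norm ℤ x).natAbs : ZMod 8)) := by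
  have x0 : x ≠ 0 := fun e => u.ne_zero (by rw [hu, e]; rfl)
  rw [lam_eq, hu, Finset.sum_eq_zero fun v hv => by rw [o_int (hx v hv), zero_smul], sub_zero,
    G_ideal χ x0, Ideal.absNorm_span_singleton]
  intro v hv
  rw [ZMod.isUnit_iff_coprime]
  refine Nat.Coprime.pow_right (m := 2) 3 ((Nat.coprime_two_right).2 (odd_nr ?_))
  by_contra h1
  exact hx v (hS v h1) hv

/-- the elements of even order at `S` outside two -/
def EE (S : Finset (HeightOneSpectrum (𝓞 F))) : Subgroup Fˣ where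
  carrier := {x | ∀ v ∈ S, v.valuation F 2 = 1 → Even (ordv v (x : F))}
  mul_mem' {a b} ha hb v h1 h2 := by rw [o_mul]; exact (ha v h1 h2).add (hb v h1 h2)
  one_mem' v _ _ := by rw [o_one (by simp)]; exact Even.zero
  inv_mem' {a} ha v h1 h2 := by
    have e := o_mul v a⁻¹ a
    rw [inv_mul_cancel, o_one (by simp)] at e
    rw [eq_neg_of_add_eq_zero_left e.symm]
    exact (ha v h1 h2).neg

/-- **the class group is generated by `T` and the dyadic primes, modulo squares** -/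
theorem big {S T : Finset (HeightOneSpectrum (𝓞 F))}
    (hPr : Pr (S : Set (HeightOneSpectrum (𝓞 F))))
    (h : ∀ g : Fˣ, ∃ m ∈ DD (S : Set (HeightOneSpectrum (𝓞 F))) ⊔
      ((S : Set (HeightOneSpectrum (𝓞 F))) ∪ T).unit F, ∃ e ∈ EE S, g = m * e)
    (v : HeightOneSpectrum (𝓞 F)) (h2 : v.valuation F 2 = 1) (hv : v ∉ T) :
    ∃ y : F, y ≠ 0 ∧ Odd (ordv v y) ∧ ∀ v', v'.valuation F 2 = 1 → v' ∉ T → v' ≠ v →
      Even (ordv v' y) := by
  classical
  have k : ∀ g : Fˣ, ∃ w ∈ ((S : Set (HeightOneSpectrum (𝓞 F))) ∪ T).unit F, ∃ e ∈ EE S,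
      g = w * e := fun g => by
    obtain ⟨m, hm, e, he, rfl⟩ := h g
    obtain ⟨d, hd, w, hw, rfl⟩ := Subgroup.mem_sup.1 hm
    exact ⟨w, hw, d * e, (EE S).mul_mem (fun v h1 _ => o_ls ((mem_DD hd).1 v h1)) he,
      by rw [mul_comm d, mul_assoc]⟩
  by_cases hS : v ∈ S
  · obtain ⟨π, hπ⟩ := v.valuation_exists_uniformizer F
    have π0 : π ≠ 0 := fun e => by rw [e, map_zero] at hπ; exact WithZero.exp_ne_zero hπ.symm
    obtain ⟨f, hf, -⟩ := weak_approx S (fun u => if u = v then Units.mk0 π π0 else 1) fun _ => 1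
    obtain ⟨w, hw, e, he, rfl⟩ := k f
    refine ⟨w, w.ne_zero, ?_, fun v' a b c => ?_⟩
    · have h3 := o_ls (hf v hS)
      have h4 := o_mul v (w * e / Units.mk0 π π0) (Units.mk0 π π0)
      simp only [if_true] at h3
      have h5 : ordv v ((Units.mk0 π π0 : Fˣ) : F) = 1 := by
        rw [ordv, Units.val_mk0, hπ, WithZero.log_exp, neg_neg]
      rw [div_mul_cancel, o_mul, h5] at h4
      obtain ⟨i, hi⟩ := h3
      obtain ⟨j, hj⟩ := he v hS h2
      exact ⟨i - j, by omega⟩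
    · by_cases d : v' ∈ S
      · have h3 := o_ls (hf v' d)
        simp only [if_neg c, div_one] at h3
        rw [o_mul] at h3
        exact (Int.even_add.1 h3).2 (he v' d a)
      · rw [o_one (hw v' fun q => q.elim d b)]; exact Even.zero
  · obtain ⟨π, p1, p2⟩ := hPr.2 v hS
    obtain ⟨w, hw, e, he, rfl⟩ := k π
    refine ⟨e, e.ne_zero, ?_, fun v' a b c => ?_⟩
    · have h4 := o_mul v w e
      rw [ordv, p1, WithZero.log_exp, neg_neg, o_one (hw v fun q => q.elim hS hv), zero_add] at h4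
      rw [← h4]; exact odd_one
    · by_cases d : v' ∈ S
      · exact he v' d a
      · have h4 := o_mul v' w e
        rw [o_one (p2 v' d c), o_one (hw v' fun q => q.elim d b), zero_add] at h4
        rw [← h4]; exact Even.zero

end Vale.Agent.P022G.Ax
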