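import Vale.Agent.P022G.Ax.Gal
import Vale.Agent.P022G.Loc.Defs
import Vale.Agent.P022E.GW.LbLoc
import Vale.Agent.P022D.Sel.Art

/-!
# P022G, block AUX: the auxiliary set
-/

set_option linter.all false

noncomputable section

namespace Vale.Agent.P022G.Ax

open NumberField
open Vale.Agent.P022 Vale.Agent.P022.H443
open Vale.Agent.P027M.S (Inert mx)
open Vale.Agent.P022D.Dk (Cy8 H8)
open Vale.Agent.P022E.GW
open Vale.Agent.P022E.GW.Kc
open Vale.Agent.P022G.Obs (FX)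
open Vale.Agent.P022G.Loc (Dh)
open Pointwise

/-- the Frobenius elements are conjugate up to inertia -/
theorem frob_cj {l : ℕ} {P P' : Ideal (𝓞 Qb)} {φ φ' : GQ} (h : Ov l P) (h' : Ov l P')
    (f : Fb l P φ) (f' : Fb l P' φ') : ∃ t i : GQ, Inert P' i ∧ φ' = i * (t * φ * t⁻¹) := by
  obtain ⟨t, rfl⟩ := P027M.F.Tra.trans h.1 h.2.1 h'.2.1 h.2.2 h'.2.2
  refine ⟨t, φ' * (t * φ * t⁻¹)⁻¹, fun x => ?_, by rw [inv_mul_cancel_right]⟩
  have k := (t • P).sub_mem (f' ((t * φ * t⁻¹)⁻¹ • x))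
    (P022D.Sel.ArtA.fr_conj t f ((t * φ * t⁻¹)⁻¹ • x))
  rwa [sub_sub_sub_cancel_right, smul_inv_smul, ← mul_smul] at k

theorem nsq {d : ℤ} (hd : d = -1 ∨ d = 2 ∨ d = -2) : ∃ g, kq (d : Qb) g = 1 := by
  by_contra h
  push Not at h
  obtain ⟨z, hz⟩ := (kq_triv (algebraMap ℚ Qb) (d : ℚ)).1 fun g _ => by
    rw [map_intCast]; exact (z2 _).resolve_right (h g)
  obtain ⟨a, ha⟩ := Rat.isSquare_intCast_iff.1 (⟨z, by rw [hz, sq]⟩ : IsSquare (d : ℚ))
  rcases hd with rfl | rfl | rfl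
  · nlinarith [mul_self_nonneg a]
  · exact Int.prime_two.not_isSquare ⟨a, ha⟩
  · nlinarith [mul_self_nonneg a]

theorem gb (g : GQ) : g (-1) = -1 := by rw [map_neg, map_one]

theorem gc (g : GQ) : g 2 = 2 := map_ofNat g 2

theorem bc (g : GQ) : kq (-2) g = kq (-1) g + kq 2 g := by
  rw [← kq_mul (by norm_num) two_ne_zero (gb g) (gc g), neg_one_mul]

theorem ab (g h : GQ) : kq (-1) (g * h) = kq (-1) g + kq (-1) h := kq_add (gb g) (gb h)

theorem ac (g h : GQ) : kq 2 (g * h) = kq 2 g + kq 2 h := kq_add (gc g) (gc h)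

theorem inv_val {a : GQ → ZMod 2} (h : ∀ g k, a (g * k) = a g + a k) (g : GQ) : a g⁻¹ = a g := by
  have h1 := h 1 1
  have h2 := h g⁻¹ g
  rw [mul_one] at h1
  rw [inv_mul_cancel] at h2
  revert h1 h2
  generalize a 1 = x, a g⁻¹ = y, a g = z
  revert x y z
  decide

/-- an element over `ℚ(ζ₈)` which moves both radicals -/
theorem ex_mv : ∃ (g : GQ) (z w : Qb), Cy8 g ∧ z ^ 4 = 2 ∧ w ^ 8 = -4 ∧ g z = -z ∧ g w = -w := by
  obtain ⟨c, hc⟩ := nsq (Or.inl rfl)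
  obtain ⟨g, g1, g2⟩ : ∃ g, kq (-1) g = 0 ∧ kq 2 g = 1 := by
    by_contra h
    rcases lin1 ⊤ (a := kq 2) (fun g _ k _ => ac g k) (fun g _ k _ => ab g k)
      (fun g _ b => (z2 _).resolve_right fun e => h ⟨g, b, e⟩) with k | k
    · obtain ⟨s, hs⟩ := nsq (Or.inr (Or.inl rfl))
      rw [Int.cast_ofNat, k s trivial] at hs
      exact zero_ne_one hs
    · obtain ⟨s, hs⟩ := nsq (Or.inr (Or.inr rfl))
      rw [Int.cast_neg, Int.cast_ofNat, bc, add_comm, k s trivial] at hs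
      exact zero_ne_one hs
  rw [Int.cast_neg, Int.cast_one] at hc
  have s1 : Cy8 (g * g) := (cy8_iff _).2 ⟨by rw [ab, g1, add_zero], by rw [ac, g2]; decide⟩
  have s2 : Cy8 (c * g * c⁻¹ * g⁻¹) := (cy8_iff _).2
    ⟨by rw [ab, ab, ab, inv_val ab, inv_val ab, hc, g1]; decide, by
      rw [ac, ac, ac, inv_val ac, inv_val ac, g2]
      generalize kq 2 c = x
      revert x
      decide⟩
  have hi := rt_sq (-1)
  have hr := rt_sq 2
  rw [kq_zero hi] at g1
  rw [kq_one two_ne_zero hr (gc g)] at g2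
  rw [kq_one (by norm_num) hi (gb c)] at hc
  have ci : ∀ h : GQ, Cy8 h → h (rt (-1)) = rt (-1) ∧ h (rt 2) = rt 2 := fun h k => by
    have := (cy8_iff h).1 k
    rwa [kq_zero hi, kq_zero hr] at this
  generalize rt (-1) = i at *
  generalize rt 2 = r at *
  have hz := rt_sq r
  have hy := rt_sq (1 + i)
  generalize rt r = z at *
  generalize rt (1 + i) = y at *
  have a1 : (g * g) z = -z := by
    have e : g z ^ 2 = (i * z) ^ 2 := by rw [← map_pow, hz, g2, mul_pow, hi, hz]; ring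
    rw [AlgEquiv.mul_apply]
    rcases sq_eq_sq_iff_eq_or_eq_neg.1 e with e | e
    · rw [e, map_mul, g1, e]; linear_combination z * hi
    · rw [e, map_neg, map_mul, g1, e]; linear_combination z * hi
  have w2 : c y ^ 2 = 1 - i := by rw [← map_pow, hy, map_add, map_one, hc]; ring
  have y0 : y ≠ 0 := fun e => by
    rw [e] at hy
    have : i = -1 := by linear_combination -hy
    rw [this] at hi
    norm_num at hi
  have a2 : (c * g * c⁻¹ * g⁻¹) (c y) = -c y := by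
    have e : (y * c y) ^ 2 = r ^ 2 := by rw [mul_pow, hy, w2, hr]; linear_combination -hi
    have e1 : g (y * c y) = -(y * c y) := by
      rcases sq_eq_sq_iff_eq_or_eq_neg.1 e with e | e
      · rw [e, g2]
      · rw [e, map_neg, g2]
    have iv : ∀ (h : GQ) (x : Qb), h⁻¹ (h x) = x := fun h x => by
      rw [← AlgEquiv.mul_apply, inv_mul_cancel]; rfl
    rw [map_mul] at e1
    simp only [AlgEquiv.mul_apply]
    rcases pm hy (g := g) (by rw [map_add, map_one, g1]) with e | e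
    · have e2 : g (-c y) = c y := by
        rw [e] at e1
        rw [map_neg, mul_left_cancel₀ y0 (e1.trans (mul_neg _ _).symm), neg_neg]
      have e3 : g⁻¹ (c y) = -c y := by rw [← iv g (-c y), e2]
      rw [e3, map_neg, iv, map_neg, e, map_neg]
    · have e2 : g (c y) = c y := by
        rw [e, neg_mul, neg_inj] at e1
        exact mul_left_cancel₀ y0 e1
      have e3 : g⁻¹ (c y) = c y := by rw [← e2, iv, e2]
      rw [e3, iv, e, map_neg]
  have z4 : z ^ 4 = 2 := by rw [← hr, ← hz]; ring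
  have w8 : c y ^ 8 = -4 := by
    rw [show (8 : ℕ) = 2 * 4 from rfl, pow_mul, w2]
    linear_combination (i ^ 2 - 4 * i + 5) * hi
  rcases pm w2 (g := g * g) (by rw [map_sub, map_one, (ci _ s1).1]) with b1 | b1
  · rcases pm hz (ci _ s2).2 with b2 | b2
    · exact ⟨g * g * (c * g * c⁻¹ * g⁻¹), z, c y, H8.mul_mem s1 s2, z4, w8,
        by rw [AlgEquiv.mul_apply, b2, a1], by rw [AlgEquiv.mul_apply, a2, map_neg, b1]⟩
    · exact ⟨_, z, c y, s2, z4, w8, b2, a2⟩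
  · exact ⟨_, z, c y, s1, z4, w8, a1, b1⟩

theorem many (U : Subgroup GQ) (hU : IsOpen (U : Set GQ)) (S : Finset ℕ) (n : ℕ) :
    ∃ B : Finset ℕ, n ≤ B.card ∧ ∀ a ∈ B, a ∉ S ∧ Sp U a := by
  classical
  induction n with
  | zero => exact ⟨∅, le_rfl, by simp⟩
  | succ n ih =>
    obtain ⟨B, h1, h2⟩ := ih
    obtain ⟨l, lS, P, φ, hO, hF, m, -, v, hv, e⟩ :=
      frob_in (U ⊓ H8) (hU.inter h8_open) 1 (insert 2 (S ∪ B))
    simp only [Finset.mem_insert, Finset.mem_union, not_or] at lS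
    rw [one_pow, one_mul] at e
    subst e
    refine ⟨insert l B, by rw [Finset.card_insert_of_notMem lS.2.2]; omega, fun a ha => ?_⟩
    rcases Finset.mem_insert.1 ha with rfl | ha
    · exact ⟨lS.2.1, mod8 hO lS.1 hF hv.2, P, _, hO, hF, hv.1⟩
    · exact h2 a ha

variable {F : Type} [Field F] [Finite F] [CharP F 2] {ρ : GQ →* GL (Fin 2) F} {H : Subgroup GQ}

theorem odd_rel (h : Dh ρ H) : Odd (Nat.card (H.map ρ)) := by
  refine Nat.not_even_iff_odd.1 fun he => ?_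
  haveI : Fact (Nat.Prime 2) := ⟨Nat.prime_two⟩
  obtain ⟨⟨_, g, hg, rfl⟩, hx⟩ := exists_prime_orderOf_dvd_card' 2 (even_iff_two_dvd.1 he)
  have h1 := pow_orderOf_eq_one (⟨ρ g, g, hg, rfl⟩ : H.map ρ)
  rw [hx] at h1
  have h2 : mx ρ g * mx ρ g = 1 := by
    have := congrArg (fun x : H.map ρ => ((x : GL (Fin 2) F) : Matrix (Fin 2) (Fin 2) F)) h1
    simpa [sq] using this
  obtain ⟨d1, d2⟩ := h.dg g hg
  have k : ∀ a : F, a * a = 1 → a = 1 := fun a e => by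
    have : (a - 1) ^ 2 = 0 := by
      linear_combination e + (1 - a) * (CharTwo.two_eq_zero : (2 : F) = 0)
    exact sub_eq_zero.1 (pow_eq_zero_iff two_ne_zero |>.1 this)
  have e0 := congrFun (congrFun h2 0) 0
  have e1 := congrFun (congrFun h2 1) 1
  rw [Matrix.mul_apply, Fin.sum_univ_two, d1, zero_mul, add_zero, Matrix.one_apply_eq] at e0
  rw [Matrix.mul_apply, Fin.sum_univ_two, d2, zero_mul, zero_add, Matrix.one_apply_eq] at e1
  have e : (⟨ρ g, g, hg, rfl⟩ : H.map ρ) = 1 := Subtype.ext (Units.ext (by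
    show mx ρ g = 1
    rw [Matrix.eta_fin_two (mx ρ g), d1, d2, k _ e0, k _ e1, Matrix.one_fin_two]))
  rw [e, orderOf_one] at hx
  exact absurd hx (by norm_num)

theorem ker_le (h : Dh ρ H) : ρ.ker ≤ H := fun g hg => by_contra fun q => by
  have := (h.ad g q).1
  rw [mx, show ρ g = 1 from hg] at this
  simpa using this

theorem out_mul (h : Dh ρ H) {g k : GQ} (hg : g ∉ H) (hk : k ∉ H) : g * k ∈ H :=
  by_contra fun q => by
    have e := (h.ad _ q).1
    have dg : (mx ρ g).det ≠ 0 := (ρ g).det_ne_zero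
    have dk : (mx ρ k).det ≠ 0 := (ρ k).det_ne_zero
    rw [Matrix.det_fin_two, (h.ad g hg).1] at dg
    rw [Matrix.det_fin_two, (h.ad k hk).1] at dk
    rw [mx, map_mul, Units.val_mul, Matrix.mul_apply, Fin.sum_univ_two] at e
    have e1 : mx ρ g 0 0 * mx ρ k 0 0 + mx ρ g 0 1 * mx ρ k 1 0 = 0 := e
    rw [(h.ad g hg).1, zero_mul, zero_add] at e1
    rcases mul_eq_zero.1 e1 with z | z
    · exact dg (by rw [z]; ring)
    · exact dk (by rw [z]; ring)

theorem fd_ker (h : Dh ρ H) : Fd ρ.ker := by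
  classical
  have e := Subgroup.relIndex_mul_index (ker_le h)
  rw [Subgroup.relIndex_ker] at e
  by_cases t : H = ⊤
  · left
    rw [← e]
    refine (odd_rel h).mul ?_
    rw [t, Subgroup.index_top]
    exact odd_one
  right
  obtain ⟨s, hs⟩ : ∃ s, s ∉ H := by
    by_contra q
    push Not at q
    exact t (eq_top_iff.2 fun g _ => q g)
  have i2 : H.index = 2 := Subgroup.index_eq_two_iff.2 ⟨s, fun b => by
    by_cases q : b ∈ H
    · exact Or.inr ⟨q, fun k => hs ((H.mul_mem_cancel_left q).1 k)⟩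
    · exact Or.inl ⟨out_mul h q hs, q⟩⟩
  let a : GQ → ZMod 2 := fun g => if g ∈ H then 0 else 1
  have a0 : ∀ g ∈ H, a g = 0 := fun g q => if_pos q
  have a1 : ∀ g ∉ H, a g = 1 := fun g q => if_neg q
  have ha : ∀ g k, a (g * k) = a g + a k := fun g k => by
    by_cases p : g ∈ H <;> by_cases q : k ∈ H
    · rw [a0 _ (H.mul_mem p q), a0 _ p, a0 _ q, add_zero]
    · rw [a1 _ fun z => q ((H.mul_mem_cancel_left p).1 z), a0 _ p, a1 _ q, zero_add]
    · rw [a1 _ fun z => p ((H.mul_mem_cancel_right q).1 z), a1 _ p, a0 _ q, add_zero]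
    · rw [a0 _ (out_mul h p q), a1 _ p, a1 _ q]; decide
  have st : ∀ g, kq 2 g = 0 ↔ g ∈ MulAction.stabilizer GQ (rt 2) := fun g => kq_zero (rt_sq _) g
  have fin : ∀ d : ℤ, (d = -1 ∨ d = 2 ∨ d = -2) → (∀ g, a g + kq (d : Qb) g = 0) →
      ∃ d : ℤ, (d = -1 ∨ d = 2 ∨ d = -2) ∧ (∀ g ∈ ρ.ker, kq (d : Qb) g = 0) ∧
        ∃ m, Odd m ∧ ρ.ker.index = 2 * m := fun d hd k =>
    ⟨d, hd, fun g q => by have := k g; rwa [a0 g (ker_le h q), zero_add] at this,
      _, odd_rel h, by rw [← e, i2, mul_comm]⟩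
  rcases lin1 (MulAction.stabilizer GQ (rt 2)) (a := a) (fun g _ k _ => ha g k)
    (fun g _ k _ => ab g k)
    (fun g p q => a0 g (h.cy8 g ((cy8_iff g).2 ⟨q, (st g).2 p⟩))) with c | c
  · rcases lin1 ⊤ (a := a) (fun g _ k _ => ha g k) (fun g _ k _ => ac g k)
      (fun g _ q => c g ((st g).1 q)) with c | c
    · exact absurd ((c s trivial).symm.trans (a1 s hs)) zero_ne_one
    · exact fin 2 (by simp) fun g => by rw [Int.cast_ofNat]; exact c g trivial
  · rcases lin1 ⊤ (a := fun g => a g + kq (-1) g) (fun g _ k _ => by rw [ha, ab]; ring)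
      (fun g _ k _ => ac g k) (fun g _ q => c g ((st g).1 q)) with c | c
    · exact fin (-1) (by simp) fun g => by rw [Int.cast_neg, Int.cast_one]; exact c g trivial
    · exact fin (-2) (by simp) fun g => by
        rw [Int.cast_neg, Int.cast_ofNat, bc, ← add_assoc]; exact c g trivial

/-- **the auxiliary set** -/
theorem exX (h : Dh ρ H) (S : Finset ℕ) (n : ℕ) : ∃ (X : Finset ℕ) (as : ℕ), n ≤ X.card ∧ as ∈ X ∧
    (∀ a ∈ X, a.Prime ∧ a ∉ S ∧ a % 8 = 1 ∧ ∀ P : Ideal (𝓞 Qb), Ov a P →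
      (∀ s, Inert P s → ρ s = 1) ∧ ∀ φ, Fb a P φ → ρ φ = 1) ∧
    (∀ (P : Ideal (𝓞 Qb)) (φ : GQ), Ov as P → Fb as P φ →
      (∃ z : Qb, z ^ 4 = 2 ∧ φ z ≠ z) ∧ ∃ z : Qb, z ^ 8 = -4 ∧ φ z ≠ z) ∧
    ∀ T : Finset ℕ, 2 ∈ T → X ⊆ T → (∀ l ∈ T, l = 0 ∨ l.Prime) → FX ρ.ker T ∧ FX ⊤ T := by
  classical
  have ho : IsOpen (ρ.ker : Set GQ) := h.opn
  obtain ⟨g, z, w, g8, z4, w8, gz, gw⟩ := ex_mv
  let V := ρ.ker ⊓ H8 ⊓ MulAction.stabilizer GQ z ⊓ MulAction.stabilizer GQ w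
  have hV : IsOpen (V : Set GQ) := ((ho.inter h8_open).inter (stab_open _)).inter (stab_open _)
  obtain ⟨R, -, hR⟩ := Hy.ex_ram (P022D.Sel.opn_core V hV)
  obtain ⟨A, A1, A2⟩ := ax ρ.ker ρ.ker ho ho (fun g q => ⟨1, odd_one, by rwa [pow_one]⟩)
    (fd_ker h) (S ∪ R)
  obtain ⟨B, B1, B2⟩ := many ρ.ker ho (S ∪ R) n
  have gm : g ^ Nat.card (H.map ρ) ∈ ρ.ker := by
    have := congrArg Subtype.val (pow_card_eq_one' (x := (⟨ρ g, g, h.cy8 g g8, rfl⟩ : H.map ρ)))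
    show ρ _ = 1
    rw [map_pow]
    exact this
  obtain ⟨l, lS, P, φ, hO, hF, m, om, v, ⟨⟨⟨v1, v2⟩, v3⟩, v4⟩, e⟩ :=
    frob_in V hV (g ^ Nat.card (H.map ρ)) (insert 2 (S ∪ R))
  rw [Finset.mem_insert, not_or] at lS
  have f1 : φ ∈ ρ.ker := e ▸ ρ.ker.mul_mem (ρ.ker.pow_mem gm m) v1
  have f2 : φ ∈ H8 := e ▸ H8.mul_mem (H8.pow_mem (H8.pow_mem (x := g) g8 _) m) v2
  have mv : ∀ x : Qb, g x = -x → v x = x → φ x = -x := fun x p q => by
    rw [e, AlgEquiv.mul_apply, q, odd_neg (odd_neg p (odd_rel h)) om]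
  have all : ∀ a ∈ insert l (A ∪ B), a ∉ S ∪ R ∧ Sp ρ.ker a := fun a ha => by
    rcases Finset.mem_insert.1 ha with rfl | ha
    · exact ⟨lS.2, mod8 hO lS.1 hF f2, P, φ, hO, hF, f1⟩
    · exact (Finset.mem_union.1 ha).elim (A1 a) (B2 a)
  refine ⟨insert l (A ∪ B), l, B1.trans (Finset.card_le_card
    (Finset.subset_union_right.trans (Finset.subset_insert _ _))), Finset.mem_insert_self _ _,
    fun a ha => ?_, fun P' φ' o f => ?_, fun T t2 tX tp => ⟨A2 T t2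
      ((Finset.subset_union_left.trans (Finset.subset_insert _ _)).trans tX) tp, fx_top t2 tp⟩⟩
  · obtain ⟨a1, a2, Q, ψ, a3, a4, a5⟩ := all a ha
    rw [Finset.mem_union, not_or] at a1
    have u : ∀ P, Ov a P → ∀ s, Inert P s → ρ s = 1 := fun P o s q =>
      (V.normalCore_le (hR a a1.2 P o s q)).1.1.1
    refine ⟨a3.1, a1.1, a2, fun P' o => ⟨u P' o, fun φ' f => ?_⟩⟩
    obtain ⟨t, i, hi, rfl⟩ := frob_cj a3 o a4 f
    have a6 : ρ ψ = 1 := a5
    rw [map_mul, u P' o i hi, map_mul, map_mul, a6, one_mul, mul_one, ← map_mul, mul_inv_cancel,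
      map_one]
  · obtain ⟨t, i, hi, rfl⟩ := frob_cj hO o hF f
    have iN := hR l (fun q => lS.2 (Finset.mem_union_right _ q)) P' o i hi
    have iV : t⁻¹ * i * t⁻¹⁻¹ ∈ V := V.normalCore_le (V.normalCore_normal.conj_mem i iN t⁻¹)
    rw [inv_inv] at iV
    have k : ∀ x : Qb, x ≠ 0 → φ x = -x → (t⁻¹ * i * t) x = x →
        (i * (t * φ * t⁻¹)) (t x) ≠ t x := fun x x0 p q r => by
      have e1 : i * (t * φ * t⁻¹) * t = t * (t⁻¹ * i * t) * φ := by group
      rw [← AlgEquiv.mul_apply, e1, AlgEquiv.mul_apply, AlgEquiv.mul_apply, p, map_neg, q] at r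
      exact ne_neg x0 (t.injective r)
    exact ⟨⟨t z, by rw [← map_pow, z4, gc], k z (by rintro rfl; norm_num at z4) (mv z gz v3)
      iV.1.2⟩, t w, by rw [← map_pow, w8, map_neg, map_ofNat],
      k w (by rintro rfl; norm_num at w8) (mv w gw v4) iV.2⟩

end Vale.Agent.P022G.Ax
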